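import Mathlib.Tactic
import Mathlib.LinearAlgebra.Matrix.Notation
import Mathlib.Analysis.SpecialFunctions.Exp
import Mathlib.Algebra.Order.Chebyshev

/-! A Poincaré inequality for a lazy symmetric finite chain gives mixing. -/

namespace Vale.Agent.P335

open Matrix Finset

variable {ι : Type*} [Fintype ι] [DecidableEq ι]

/-- The lazy version of `K`. -/
noncomputable def lazy (K : Matrix ι ι ℝ) : Matrix ι ι ℝ :=
  fun x y => (1 / 2) * (if x = y then 1 else 0) + (1 / 2) * K x y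

theorem lazy_vecMul (K : Matrix ι ι ℝ) (f : ι → ℝ) (y : ι) :
    (f ᵥ* lazy K) y = (f y + ∑ x, f x * K x y) / 2 := by
  simp only [Matrix.vecMul, dotProduct, lazy, mul_add, Finset.sum_add_distrib]
  have e1 : ∑ x, f x * (1 / 2 * if x = y then (1 : ℝ) else 0) = f y / 2 := by
    rw [Finset.sum_eq_single y]
    · simp; ring
    · intro b _ hb; simp [hb]
    · simp
  rw [e1]
  have e2 : ∑ x, f x * (1 / 2 * K x y) = (∑ x, f x * K x y) / 2 := by
    rw [Finset.sum_div]; exact Finset.sum_congr rfl fun x _ => by ring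
  rw [e2]; ring

variable {K : Matrix ι ι ℝ} (hnn : ∀ x y, 0 ≤ K x y) (hsym : ∀ x y, K x y = K y x)
  (hrow : ∀ x, ∑ y, K x y = 1)

include hrow in
theorem sum_vecMul_lazy (f : ι → ℝ) : ∑ y, (f ᵥ* lazy K) y = ∑ y, f y := by
  simp only [lazy_vecMul, ← Finset.sum_div, Finset.sum_add_distrib]
  rw [Finset.sum_comm (f := fun y x => f x * K x y)]
  simp [← Finset.mul_sum, hrow]

include hsym hrow in
theorem dirichlet_eq (f : ι → ℝ) :
    ∑ x, ∑ y, K x y * (f x - f y) ^ 2
      = 2 * ∑ x, f x ^ 2 - 2 * ∑ y, f y * ∑ x, f x * K x y := by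
  have h1 : ∑ x, ∑ y, K x y * f x ^ 2 = ∑ x, f x ^ 2 := by
    simp [← Finset.sum_mul, hrow]
  have h2 : ∑ x, ∑ y, K x y * f y ^ 2 = ∑ x, f x ^ 2 := by
    rw [Finset.sum_comm, ← h1]
    exact Finset.sum_congr rfl fun y _ => Finset.sum_congr rfl fun x _ => by rw [hsym]
  have h3 : ∑ x, ∑ y, K x y * (f x * f y) = ∑ y, f y * ∑ x, f x * K x y := by
    rw [Finset.sum_comm]
    exact Finset.sum_congr rfl fun y _ => by
      rw [Finset.mul_sum]; exact Finset.sum_congr rfl fun x _ => by ring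
  calc ∑ x, ∑ y, K x y * (f x - f y) ^ 2
      = ∑ x, ∑ y, (K x y * f x ^ 2 + K x y * f y ^ 2 - 2 * (K x y * (f x * f y))) :=
        Finset.sum_congr rfl fun x _ => Finset.sum_congr rfl fun y _ => by ring
    _ = _ := by
        simp only [Finset.sum_sub_distrib, Finset.sum_add_distrib, ← Finset.mul_sum, h1, h2, h3]
        ring

include hnn hsym hrow in
theorem sq_lazy_le (f : ι → ℝ) :
    ∑ y, (f ᵥ* lazy K) y ^ 2 ≤ ∑ y, f y * (f ᵥ* lazy K) y := by
  have hjen : ∀ y, (∑ x, f x * K x y) ^ 2 ≤ ∑ x, f x ^ 2 * K x y := by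
    intro y
    have hc : ∑ x, K x y = 1 := by
      rw [← hrow y]; exact Finset.sum_congr rfl fun x _ => hsym x y
    set m := ∑ x, f x * K x y with hm
    have : 0 ≤ ∑ x, K x y * (f x - m) ^ 2 :=
      Finset.sum_nonneg fun x _ => mul_nonneg (hnn x y) (sq_nonneg _)
    have e : ∑ x, K x y * (f x - m) ^ 2
        = (∑ x, f x ^ 2 * K x y) - 2 * m * m + m ^ 2 * ∑ x, K x y := by
      have : ∀ x, K x y * (f x - m) ^ 2
          = f x ^ 2 * K x y - 2 * m * (f x * K x y) + m ^ 2 * K x y := fun x => by ring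
      simp only [this, Finset.sum_add_distrib, Finset.sum_sub_distrib, ← Finset.mul_sum]
      rw [← hm]
    rw [e, hc] at this
    nlinarith
  have h4 : ∑ y, ∑ x, f x ^ 2 * K x y = ∑ y, f y ^ 2 := by
    rw [Finset.sum_comm]; simp [← Finset.mul_sum, hrow]
  have h5 : ∑ y, (∑ x, f x * K x y) ^ 2 ≤ ∑ y, f y ^ 2 :=
    h4 ▸ Finset.sum_le_sum fun y _ => hjen y
  have : ∑ y, (f y * (f ᵥ* lazy K) y - (f ᵥ* lazy K) y ^ 2)
      = (∑ y, f y ^ 2 - ∑ y, (∑ x, f x * K x y) ^ 2) / 4 := by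
    rw [← Finset.sum_sub_distrib, Finset.sum_div]
    exact Finset.sum_congr rfl fun y _ => by rw [lazy_vecMul]; ring
  rw [Finset.sum_sub_distrib] at this
  linarith

include hnn hsym hrow in
theorem contract {A : ℝ} (hA : 0 < A)
    (hP : ∀ f : ι → ℝ, ∑ x, ∑ y, (f x - f y) ^ 2
      ≤ A * Fintype.card ι * ∑ x, ∑ y, K x y * (f x - f y) ^ 2)
    (f : ι → ℝ) (h0 : ∑ x, f x = 0) :
    ∑ y, (f ᵥ* lazy K) y ^ 2 ≤ (1 - 1 / (2 * A)) * ∑ y, f y ^ 2 := by
  rcases isEmpty_or_nonempty ι with hι | hι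
  · simp
  have hN : (0 : ℝ) < Fintype.card ι := by exact_mod_cast Fintype.card_pos
  have hvar : ∑ x, ∑ y, (f x - f y) ^ 2 = 2 * Fintype.card ι * ∑ y, f y ^ 2 := by
    have : ∀ x y : ι, (f x - f y) ^ 2 = f x ^ 2 + f y ^ 2 - 2 * f x * f y := fun x y => by ring
    simp only [this, Finset.sum_sub_distrib, Finset.sum_add_distrib, ← Finset.mul_sum, h0,
      Finset.sum_const, Finset.card_univ, nsmul_eq_mul, mul_zero]
    ring
  have h := hP f
  rw [hvar] at h
  have hdir := dirichlet_eq hsym hrow f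
  set D := ∑ x, ∑ y, K x y * (f x - f y) ^ 2
  set Q := ∑ y, f y ^ 2
  have hD : Q ≤ A / 2 * D := by
    refine le_of_mul_le_mul_left ?_ (mul_pos two_pos hN)
    calc _ ≤ A * Fintype.card ι * D := h
      _ = _ := by ring
  have e : ∑ y, f y * (f ᵥ* lazy K) y = Q - D / 4 := by
    have : ∀ y, f y * (f ᵥ* lazy K) y = f y ^ 2 / 2 + f y * (∑ x, f x * K x y) / 2 :=
      fun y => by rw [lazy_vecMul]; ring
    simp only [this, Finset.sum_add_distrib, ← Finset.sum_div]
    linarith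
  have h2 := sq_lazy_le hnn hsym hrow f
  rw [e] at h2
  refine h2.trans ?_
  have : Q / (2 * A) ≤ D / 4 := by
    rw [div_le_iff₀ (by positivity)]; linarith
  have : (1 - 1 / (2 * A)) * Q = Q - Q / (2 * A) := by ring
  linarith

include hnn hsym hrow in
theorem mixing {A B : ℝ} (hA : 1 ≤ A)
    (hP : ∀ f : ι → ℝ, ∑ x, ∑ y, (f x - f y) ^ 2
      ≤ A * Fintype.card ι * ∑ x, ∑ y, K x y * (f x - f y) ^ 2)
    (hB : (Fintype.card ι : ℝ) ≤ Real.exp B) {t : ℕ} (ht : 2 * A * (B + 2) ≤ t) (x : ι) :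
    (1 / 2) * ∑ y, |(lazy K ^ t) x y - 1 / (Fintype.card ι : ℝ)| ≤ 1 / 4 := by
  have hN : (0 : ℝ) < Fintype.card ι := by
    exact_mod_cast Fintype.card_pos_iff.mpr ⟨x⟩
  set N := (Fintype.card ι : ℝ) with hNdef
  let g : ℕ → ι → ℝ := fun s y => (lazy K ^ s) x y - 1 / N
  have hrowP : ∀ a, ∑ y, lazy K a y = 1 := by
    intro a
    simp only [lazy, Finset.sum_add_distrib, ← Finset.mul_sum, hrow]
    simp; norm_num
  have hcolP : ∀ a, ∑ y, lazy K y a = 1 := by
    intro a
    rw [← hrowP a]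
    exact Finset.sum_congr rfl fun y _ => by simp [lazy, eq_comm, hsym y a]
  have hstep : ∀ s, g (s + 1) = g s ᵥ* lazy K := by
    intro s
    funext y
    simp only [g, Matrix.vecMul, dotProduct, sub_mul, Finset.sum_sub_distrib, ← Finset.mul_sum,
      hcolP, mul_one, pow_succ, Matrix.mul_apply]
  have h0 : ∀ s, ∑ y, g s y = 0 := by
    intro s
    induction s with
    | zero =>
      simp only [g, pow_zero, Finset.sum_sub_distrib, Matrix.one_apply, Finset.sum_const,
        Finset.card_univ, nsmul_eq_mul, ← hNdef]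
      rw [mul_div_cancel₀ _ hN.ne']; simp
    | succ s ih => rw [hstep, sum_vecMul_lazy hrow, ih]
  have hbase : ∑ y, g 0 y ^ 2 ≤ 1 := by
    have : ∀ y, g 0 y ^ 2 = (if x = y then 1 else 0) - (2 / N) * (if x = y then 1 else 0)
        + 1 / N ^ 2 := by
      intro y
      simp only [g, pow_zero, Matrix.one_apply]
      split <;> ring
    simp only [this, Finset.sum_add_distrib, Finset.sum_sub_distrib, ← Finset.mul_sum,
      Finset.sum_ite_eq, Finset.mem_univ, if_true, mul_one, Finset.sum_const, Finset.card_univ,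
      nsmul_eq_mul, ← hNdef]
    have e : N * (1 / N ^ 2) = 1 / N := by field_simp
    have : 1 / N ≤ 2 / N := by gcongr; norm_num
    linarith
  have hq : 0 ≤ 1 - 1 / (2 * A) := by
    have : 1 / (2 * A) ≤ 1 := by rw [div_le_one (by positivity)]; linarith
    linarith
  have hdec : ∀ s, ∑ y, g s y ^ 2 ≤ (1 - 1 / (2 * A)) ^ s := by
    intro s
    induction s with
    | zero => simpa using hbase
    | succ s ih =>
      rw [hstep, pow_succ, mul_comm]
      exact (contract hnn hsym hrow (by linarith) hP _ (h0 s)).trans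
        (mul_le_mul_of_nonneg_left ih hq)
  have hexp : (1 - 1 / (2 * A)) ^ t ≤ Real.exp (-(B + 2)) := by
    calc (1 - 1 / (2 * A)) ^ t ≤ Real.exp (-(1 / (2 * A))) ^ t :=
          pow_le_pow_left₀ hq (Real.one_sub_le_exp_neg _) t
      _ = Real.exp (-(t / (2 * A))) := by rw [← Real.exp_nat_mul]; congr 1; ring
      _ ≤ _ := by
          refine Real.exp_le_exp.mpr (neg_le_neg ?_)
          rw [le_div_iff₀ (by positivity)]; linarith
  have hcs : (∑ y, |g t y|) ^ 2 ≤ N * ∑ y, g t y ^ 2 := by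
    have := sq_sum_le_card_mul_sum_sq (s := (Finset.univ : Finset ι)) (f := fun y => |g t y|)
    simpa [sq_abs] using this
  have h14 : (∑ y, |g t y|) ^ 2 ≤ 1 / 4 := by
    refine hcs.trans ?_
    calc N * ∑ y, g t y ^ 2 ≤ Real.exp B * Real.exp (-(B + 2)) :=
          mul_le_mul hB ((hdec t).trans hexp) (Finset.sum_nonneg fun y _ => sq_nonneg _)
            (Real.exp_pos _).le
      _ = Real.exp (-2) := by rw [← Real.exp_add]; congr 1; ring
      _ ≤ 1 / 4 := by
          have h1 : (2 : ℝ) ≤ Real.exp 1 := by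
            have := Real.add_one_le_exp (1 : ℝ); linarith
          have h4 : (4 : ℝ) ≤ Real.exp 2 := by
            have : Real.exp 2 = Real.exp 1 * Real.exp 1 := by rw [← Real.exp_add]; norm_num
            rw [this]; nlinarith
          rw [Real.exp_neg, one_div]
          exact inv_anti₀ (by norm_num) h4
  have hnn' : 0 ≤ ∑ y, |g t y| := Finset.sum_nonneg fun y _ => abs_nonneg _
  have : ∑ y, |g t y| ≤ 1 / 2 := by nlinarith
  linarith

end Vale.Agent.P335
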