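import Vale.Agent.P335.Graph
import Vale.Agent.P335.Mixing

/-! The switch chain is the lazy version of a symmetric stochastic matrix. -/

namespace Vale.Agent.P335

open Finset
open scoped symmDiff

variable {n : ℕ} {d : Fin n → ℕ}

/-- The non-lazy part of the chain. -/
noncomputable def moveMatrix (d : Fin n → ℕ) : Matrix (Realization d) (Realization d) ℝ :=
  fun G G' => (1 / (Nat.choose n 4 : ℝ)) *
      ∑ S ∈ (Finset.univ : Finset (Fin n)).powersetCard 4,
        (1 / ((matchingPairs S).card : ℝ)) *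
          ∑ p ∈ matchingPairs S, if applyMove G.1 p = G'.1 then 1 else 0

theorem switchChain_eq : switchChain d = lazy (moveMatrix d) := rfl

theorem mem_matchings {S : Finset (Fin n)} {F : Finset (Sym2 (Fin n))} :
    F ∈ matchings S ↔
      (∀ e ∈ F, e ∈ S.sym2) ∧ (∀ e ∈ F, ¬ e.IsDiag) ∧ ∀ v ∈ S, deg F v = 1 := by
  simp [matchings, Finset.subset_iff]

theorem deg_outside {S : Finset (Fin n)} {F : Finset (Sym2 (Fin n))} (h : F ∈ matchings S)
    {v : Fin n} (hv : v ∉ S) : deg F v = 0 := by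
  rw [deg, Finset.card_eq_zero, Finset.filter_eq_empty_iff]
  intro w _ hw
  exact hv (Finset.mk_mem_sym2_iff.mp ((mem_matchings.mp h).1 _ hw)).1

theorem deg_union_disjoint {A B : Finset (Sym2 (Fin n))} (h : Disjoint A B) (v : Fin n) :
    deg (A ∪ B) v = deg A v + deg B v := by
  simp only [deg, Finset.mem_union, Finset.filter_or]
  apply Finset.card_union_of_disjoint
  rw [Finset.disjoint_filter]
  exact fun w _ hA hB => Finset.disjoint_left.mp h hA hB

theorem applyMove_mem (G : Realization d) {S : Finset (Fin n)}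
    {p : Finset (Sym2 (Fin n)) × Finset (Sym2 (Fin n))} (hp : p ∈ matchingPairs S) :
    (∀ e ∈ applyMove G.1 p, ¬ e.IsDiag) ∧ ∀ v, deg (applyMove G.1 p) v = d v := by
  obtain ⟨E, hE, hd⟩ := G
  simp only [matchingPairs, Finset.mem_filter, Finset.mem_product] at hp
  obtain ⟨⟨h1, h2⟩, -⟩ := hp
  simp only [applyMove]
  split_ifs with hc
  · refine ⟨fun e he => ?_, fun v => ?_⟩
    · rcases Finset.mem_union.mp he with h | h
      · exact hE e (Finset.mem_sdiff.mp h).1
      · exact (mem_matchings.mp h2).2.1 e h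
    · have e1 : deg E v = deg (E \ p.1) v + deg p.1 v := by
        rw [← deg_union_disjoint Finset.sdiff_disjoint, Finset.sdiff_union_of_subset hc.1]
      have hdis : Disjoint (E \ p.1) p.2 :=
        Finset.disjoint_of_subset_left Finset.sdiff_subset hc.2.symm
      have e2 := deg_union_disjoint hdis v
      have e3 : deg p.1 v = deg p.2 v := by
        by_cases hv : v ∈ S
        · rw [(mem_matchings.mp h1).2.2 v hv, (mem_matchings.mp h2).2.2 v hv]
        · rw [deg_outside h1 hv, deg_outside h2 hv]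
      rw [e2, ← e3, ← hd v, e1]
  · exact ⟨hE, hd⟩

theorem four_of_card {S : Finset (Fin n)} (h : S.card = 4) :
    ∃ a b c e : Fin n, a ≠ b ∧ a ≠ c ∧ a ≠ e ∧ b ≠ c ∧ b ≠ e ∧ c ≠ e ∧ S = {a, b, c, e} := by
  obtain ⟨a, T, ha, rfl, hT⟩ := Finset.card_eq_succ.mp h
  obtain ⟨b, c, e, hbc, hbe, hce, rfl⟩ := Finset.card_eq_three.mp hT
  simp only [Finset.mem_insert, Finset.mem_singleton, not_or] at ha
  exact ⟨a, b, c, e, ha.1, ha.2.1, ha.2.2, hbc, hbe, hce, rfl⟩

theorem pair_mem_matchings {a b c e : Fin n} (hab : a ≠ b) (hac : a ≠ c) (hae : a ≠ e)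
    (hbc : b ≠ c) (hbe : b ≠ e) (hce : c ≠ e) {S : Finset (Fin n)}
    (hS : ∀ v, v ∈ S ↔ v = a ∨ v = b ∨ v = c ∨ v = e) :
    ({s(a, b), s(c, e)} : Finset (Sym2 (Fin n))) ∈ matchings S := by
  rw [mem_matchings]
  refine ⟨?_, ?_, ?_⟩
  · intro f hf
    simp only [Finset.mem_insert, Finset.mem_singleton] at hf
    rcases hf with rfl | rfl <;> simp [Finset.mk_mem_sym2_iff, hS]
  · intro f hf
    simp only [Finset.mem_insert, Finset.mem_singleton] at hf
    rcases hf with rfl | rfl <;> simp [hab, hce]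
  · intro v hv
    have h0 : deg (∅ : Finset (Sym2 (Fin n))) v = 0 := by simp [deg]
    have e1 := deg_insert hce (Finset.notMem_empty s(c, e)) v
    have e2 := deg_insert hab (E := insert s(c, e) ∅) (by simp [hac, hae]) v
    have hdeg : (deg ({s(a, b), s(c, e)} : Finset (Sym2 (Fin n))) v : ℤ) = 1 := by
      rw [show ({s(a, b), s(c, e)} : Finset (Sym2 (Fin n))) = insert s(a, b) (insert s(c, e) ∅)
        from rfl, e2, e1, h0]
      rcases (hS v).mp hv with rfl | rfl | rfl | rfl <;>
        simp [hab, hac, hae, hbc, hbe, hce, hab.symm, hac.symm, hae.symm, hbc.symm, hbe.symm,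
          hce.symm]
    exact_mod_cast hdeg

theorem pair_mem_matchingPairs {a b c e : Fin n} (hab : a ≠ b) (hac : a ≠ c) (hae : a ≠ e)
    (hbc : b ≠ c) (hbe : b ≠ e) (hce : c ≠ e) :
    (({s(a, b), s(c, e)} : Finset (Sym2 (Fin n))), ({s(a, c), s(b, e)} : Finset (Sym2 (Fin n))))
      ∈ matchingPairs {a, b, c, e} := by
  simp only [matchingPairs, Finset.mem_filter, Finset.mem_product]
  refine ⟨⟨pair_mem_matchings hab hac hae hbc hbe hce (by simp),
    pair_mem_matchings hac hab hae hbc.symm hce hbe (by intro v; simp; tauto)⟩, fun h => ?_⟩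
  have : s(a, b) ∈ ({s(a, c), s(b, e)} : Finset (Sym2 (Fin n))) := by rw [← h]; simp
  simp [hbc, hab, hab.symm, hae, hac] at this

theorem moveMatrix_nonneg (G G' : Realization d) : 0 ≤ moveMatrix d G G' := by
  refine mul_nonneg (by positivity) (Finset.sum_nonneg fun S _ => mul_nonneg (by positivity) ?_)
  exact Finset.sum_nonneg fun p _ => by split <;> norm_num

theorem moveMatrix_row (hn : 4 ≤ n) (G : Realization d) : ∑ G', moveMatrix d G G' = 1 := by
  classical
  simp only [moveMatrix, ← Finset.mul_sum]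
  rw [Finset.sum_comm]
  have : ∀ S ∈ (Finset.univ : Finset (Fin n)).powersetCard 4,
      ∑ G' : Realization d, (1 / ((matchingPairs S).card : ℝ)) *
        ∑ p ∈ matchingPairs S, (if applyMove G.1 p = G'.1 then (1 : ℝ) else 0) = 1 := by
    intro S hS
    rw [← Finset.mul_sum, Finset.sum_comm]
    have e : ∀ p ∈ matchingPairs S,
        ∑ G' : Realization d, (if applyMove G.1 p = G'.1 then (1 : ℝ) else 0) = 1 := by
      intro p hp
      rw [Finset.sum_eq_single (⟨_, applyMove_mem G hp⟩ : Realization d)]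
      · simp
      · intro b _ hb
        rw [if_neg]
        intro h
        exact hb (Subtype.ext h.symm)
      · simp
    obtain ⟨a, b, c, f, h1, h2, h3, h4, h5, h6, rfl⟩ :=
      four_of_card (Finset.mem_powersetCard.mp hS).2
    rw [Finset.sum_congr rfl e, Finset.sum_const, nsmul_eq_mul, mul_one, one_div,
      inv_mul_cancel₀]
    have := Finset.card_pos.mpr ⟨_, pair_mem_matchingPairs h1 h2 h3 h4 h5 h6⟩
    positivity
  rw [Finset.sum_congr rfl this, Finset.sum_const, Finset.card_powersetCard, Finset.card_univ,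
    Fintype.card_fin, nsmul_eq_mul, mul_one, one_div, inv_mul_cancel₀]
  exact_mod_cast (Nat.choose_pos hn).ne'

theorem applyMove_flip {E E' : Finset (Sym2 (Fin n))}
    {p : Finset (Sym2 (Fin n)) × Finset (Sym2 (Fin n))} (h : applyMove E p = E') (hne : E ≠ E') :
    applyMove E' p.swap = E := by
  simp only [applyMove] at h
  split_ifs at h with hc
  · subst h
    obtain ⟨h1, h2⟩ := hc
    simp only [applyMove, Prod.fst_swap, Prod.snd_swap]
    have hd : Disjoint p.1 p.2 := Finset.disjoint_of_subset_left h1 h2.symm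
    rw [if_pos]
    · ext e
      simp only [Finset.mem_union, Finset.mem_sdiff]
      constructor
      · rintro (⟨(⟨h, -⟩ | h), h'⟩ | h)
        · exact h
        · exact absurd h h'
        · exact h1 h
      · intro he
        by_cases hp : e ∈ p.1
        · exact Or.inr hp
        · exact Or.inl ⟨Or.inl ⟨he, hp⟩, fun h => Finset.disjoint_left.mp h2 h he⟩
    · refine ⟨Finset.subset_union_right, ?_⟩
      rw [Finset.disjoint_union_right]
      exact ⟨Finset.disjoint_sdiff, hd⟩
  · exact absurd h hne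

theorem moveMatrix_symm (G G' : Realization d) : moveMatrix d G G' = moveMatrix d G' G := by
  rcases eq_or_ne G G' with rfl | hne
  · rfl
  have hne' : G.1 ≠ G'.1 := fun h => hne (Subtype.ext h)
  simp only [moveMatrix]
  congr 1
  refine Finset.sum_congr rfl fun S _ => ?_
  congr 1
  simp only [Finset.sum_boole]
  norm_cast
  refine Finset.card_equiv (Equiv.prodComm _ _) fun p => ?_
  simp only [matchingPairs, Finset.mem_filter, Finset.mem_product, Equiv.prodComm_apply,
    Prod.fst_swap, Prod.snd_swap]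
  constructor
  · rintro ⟨⟨⟨a, b⟩, c⟩, h⟩
    exact ⟨⟨⟨b, a⟩, c.symm⟩, applyMove_flip h hne'⟩
  · rintro ⟨⟨⟨a, b⟩, c⟩, h⟩
    exact ⟨⟨⟨b, a⟩, c.symm⟩, by simpa using applyMove_flip h hne'.symm⟩

/-- A switch of edges `ab, ce` to `ac, be`. -/
def IsSwitch (E E' : Finset (Sym2 (Fin n))) : Prop :=
  ∃ a b c e : Fin n, (a ≠ b ∧ a ≠ c ∧ a ≠ e ∧ b ≠ c ∧ b ≠ e ∧ c ≠ e) ∧
    (s(a, b) ∈ E ∧ s(c, e) ∈ E ∧ s(a, c) ∉ E ∧ s(b, e) ∉ E) ∧
    E' = E ∆ {s(a, b), s(c, e), s(a, c), s(b, e)}

theorem switch_lower {G G' : Realization d} (h : IsSwitch G.1 G'.1) :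
    1 / ((n : ℝ) ^ 4 * 2 ^ 20) ≤ moveMatrix d G G' := by
  obtain ⟨a, b, c, e, ⟨h1, h2, h3, h4, h5, h6⟩, ⟨m1, m2, m3, m4⟩, he⟩ := h
  set S : Finset (Fin n) := {a, b, c, e} with hSdef
  have hcard : S.card = 4 := by simp [hSdef, h1, h2, h3, h4, h5, h6]
  have hS : S ∈ (Finset.univ : Finset (Fin n)).powersetCard 4 :=
    Finset.mem_powersetCard.mpr ⟨Finset.subset_univ _, hcard⟩
  have hp := pair_mem_matchingPairs h1 h2 h3 h4 h5 h6
  rw [← hSdef] at hp
  have happ : applyMove G.1 (({s(a, b), s(c, e)} : Finset (Sym2 (Fin n))),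
      ({s(a, c), s(b, e)} : Finset (Sym2 (Fin n)))) = G'.1 := by
    rw [he, applyMove, if_pos]
    · ext f
      simp only [Finset.mem_union, Finset.mem_sdiff, Finset.mem_symmDiff, Finset.mem_insert,
        Finset.mem_singleton]
      constructor
      · rintro (⟨hf, hn'⟩ | (rfl | rfl))
        · refine Or.inl ⟨hf, ?_⟩
          rintro (rfl | rfl | rfl | rfl) <;> simp_all
        · exact Or.inr ⟨by simp, m3⟩
        · exact Or.inr ⟨by simp, m4⟩
      · rintro (⟨hf, hn'⟩ | ⟨(rfl | rfl | rfl | rfl), hf⟩)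
        · exact Or.inl ⟨hf, fun h => hn' (h.elim Or.inl (fun h => Or.inr (Or.inl h)))⟩
        · exact absurd m1 hf
        · exact absurd m2 hf
        · exact Or.inr (Or.inl rfl)
        · exact Or.inr (Or.inr rfl)
    · refine ⟨by simp [Finset.insert_subset_iff, m1, m2], ?_⟩
      simp [m3, m4]
  have hC : (Nat.choose n 4 : ℝ) ≤ (n : ℝ) ^ 4 := by exact_mod_cast Nat.choose_le_pow n 4
  have hC0 : (0 : ℝ) < (Nat.choose n 4 : ℝ) := by
    have : 4 ≤ n := by
      have := Finset.card_le_univ S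
      simpa [hcard] using this
    exact_mod_cast Nat.choose_pos this
  have hP : ((matchingPairs S).card : ℝ) ≤ 2 ^ 20 := by
    have h' : (matchingPairs S).card ≤ 2 ^ 20 := by
      refine (Finset.card_filter_le _ _).trans ?_
      rw [Finset.card_product]
      have : (matchings S).card ≤ 2 ^ 10 := by
        refine (Finset.card_filter_le _ _).trans ?_
        rw [Finset.card_powerset, Finset.card_sym2, hcard]
        norm_num [Nat.choose]
      calc _ ≤ 2 ^ 10 * 2 ^ 10 := Nat.mul_le_mul this this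
        _ = _ := by norm_num
    exact_mod_cast h'
  have hP0 : (0 : ℝ) < ((matchingPairs S).card : ℝ) := by
    exact_mod_cast Finset.card_pos.mpr ⟨_, hp⟩
  have hterm : 1 / (2 : ℝ) ^ 20 ≤ (1 / ((matchingPairs S).card : ℝ)) *
      ∑ p ∈ matchingPairs S, if applyMove G.1 p = G'.1 then (1 : ℝ) else 0 := by
    have h1' : (1 : ℝ) ≤ ∑ p ∈ matchingPairs S, if applyMove G.1 p = G'.1 then (1 : ℝ) else 0 := by
      rw [Finset.sum_boole, Nat.one_le_cast]
      exact Finset.card_pos.mpr ⟨_, Finset.mem_filter.mpr ⟨hp, happ⟩⟩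
    calc 1 / (2 : ℝ) ^ 20 ≤ 1 / ((matchingPairs S).card : ℝ) :=
          one_div_le_one_div_of_le hP0 hP
      _ ≤ _ := le_mul_of_one_le_right (one_div_nonneg.mpr hP0.le) h1'
  have hnonneg : ∀ T ∈ (Finset.univ : Finset (Fin n)).powersetCard 4,
      0 ≤ (1 / ((matchingPairs T).card : ℝ)) *
        ∑ p ∈ matchingPairs T, if applyMove G.1 p = G'.1 then (1 : ℝ) else 0 := fun T _ =>
    mul_nonneg (one_div_nonneg.mpr (Nat.cast_nonneg _)) (Finset.sum_nonneg fun p _ => by split; exacts [zero_le_one, le_rfl])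
  have hsum : 1 / (2 : ℝ) ^ 20 ≤ ∑ T ∈ (Finset.univ : Finset (Fin n)).powersetCard 4,
      (1 / ((matchingPairs T).card : ℝ)) *
        ∑ p ∈ matchingPairs T, if applyMove G.1 p = G'.1 then (1 : ℝ) else 0 :=
    hterm.trans (Finset.single_le_sum hnonneg hS)
  have e1 : 1 / ((n : ℝ) ^ 4 * 2 ^ 20) = (1 / (n : ℝ) ^ 4) * (1 / 2 ^ 20) := by
    rw [one_div_mul_one_div]
  rw [e1]
  exact mul_le_mul (one_div_le_one_div_of_le hC0 hC) hsum (one_div_nonneg.mpr (pow_nonneg zero_le_two _))
    (one_div_nonneg.mpr (Nat.cast_nonneg _))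

end Vale.Agent.P335
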