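import Vale.Agent.P335.Pairing
import Mathlib.Dynamics.PeriodicPts.Lemmas

/-! Circuits of an alternating transition system and the degree effect of their segments. -/

namespace Vale.Agent.P335

open Finset
open scoped symmDiff

variable {n : ℕ}

/-- The underlying edge of a dart. -/
def edge (g : Dart n) : Sym2 (Fin n) := s(g.1, g.2)

/-- Follow the transition system. -/
def step (P : Sys n) : Equiv.Perm (Dart n) where
  toFun g := (g.2, P g.2 g.1)
  invFun g := ((P g.1).symm g.2, g.1)
  left_inv g := by simp
  right_inv g := by simp

@[simp] theorem step_apply (P : Sys n) (g : Dart n) : step P g = (g.2, P g.2 g.1) := rfl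

theorem edge_swap (g : Dart n) : edge g.swap = edge g := Sym2.eq_swap

theorem edge_eq_iff (g h : Dart n) : edge g = edge h ↔ g = h ∨ g = h.swap := by
  simp [edge, Prod.ext_iff]

/-- Signed change of degree at `v` when flipping `F` in `A`. -/
def degChange (A F : Finset (Sym2 (Fin n))) (v : Fin n) : ℤ :=
  ∑ w, if s(v, w) ∈ F then (if s(v, w) ∈ A then -1 else 1) else 0

theorem deg_symmDiff (A F : Finset (Sym2 (Fin n))) (v : Fin n) :
    (deg (A ∆ F) v : ℤ) = deg A v + degChange A F v := by
  have e : ∀ E, (deg E v : ℤ) = ∑ w, if s(v, w) ∈ E then 1 else 0 := fun E => by simp [deg]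
  rw [e, e, degChange, ← Finset.sum_add_distrib]
  refine Finset.sum_congr rfl fun w _ => ?_
  simp only [Finset.mem_symmDiff]
  by_cases h1 : s(v, w) ∈ A <;> by_cases h2 : s(v, w) ∈ F <;> simp [h1, h2]

theorem degChange_union {A F G : Finset (Sym2 (Fin n))} (h : Disjoint F G) (v : Fin n) :
    degChange A (F ∪ G) v = degChange A F v + degChange A G v := by
  rw [degChange, degChange, degChange, ← Finset.sum_add_distrib]
  refine Finset.sum_congr rfl fun w _ => ?_
  by_cases h1 : s(v, w) ∈ F
  · simp [h1, Finset.disjoint_left.mp h h1]
  · by_cases h2 : s(v, w) ∈ G <;> simp [h1, h2]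

theorem degChange_single (A : Finset (Sym2 (Fin n))) {a b : Fin n} (hab : a ≠ b) (v : Fin n) :
    degChange A {s(a, b)} v
      = (if s(a, b) ∈ A then -1 else 1) * ((if v = a then 1 else 0) + (if v = b then 1 else 0)) := by
  by_cases h1 : v = a
  · subst h1
    rw [degChange, Finset.sum_eq_single b]
    · simp [hab]
    · intro w _ hw; simp [hw, hab]
    · simp
  · by_cases h2 : v = b
    · subst h2
      rw [degChange, Finset.sum_eq_single a]
      · simp [h1, Sym2.eq_swap (a := v)]
      · intro w _ hw; simp [hw, h1]
      · simp
    · simp [degChange, h1, h2]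

theorem degChange_flip {M M' F : Finset (Sym2 (Fin n))} (hF : F ⊆ M ∆ M') (v : Fin n) :
    degChange M' F v = - degChange M F v := by
  rw [degChange, degChange, ← Finset.sum_neg_distrib]
  refine Finset.sum_congr rfl fun w _ => ?_
  by_cases h : s(v, w) ∈ F
  · rcases Finset.mem_symmDiff.mp (hF h) with h' | h' <;> simp [h, h'.1, h'.2]
  · simp [h]

/-- The data attached to two edge sets and an alternating transition system. -/
structure Alternating (M M' : Finset (Sym2 (Fin n))) (P : Sys n) : Prop where
  loopless : Loopless (M ∆ M')
  fits : ∀ v, FitsAt (M ∆ M') M ∅ v (P v)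

variable {M M' : Finset (Sym2 (Fin n))} {P : Sys n}

/-- Sign of a dart: the change when its edge is flipped in `M`. -/
def sign (M : Finset (Sym2 (Fin n))) (g : Dart n) : ℤ := if edge g ∈ M then -1 else 1

theorem sign_or (M : Finset (Sym2 (Fin n))) (g : Dart n) : sign M g = 1 ∨ sign M g = -1 := by
  unfold sign; split <;> simp

/-- The segment of `l` steps starting at `g`. -/
def segment (P : Sys n) (g : Dart n) (l : ℕ) : Finset (Sym2 (Fin n)) :=
  (Finset.range l).image fun k => edge ((step P)^[k] g)

/-- The period of a dart. -/
noncomputable def period (P : Sys n) (g : Dart n) : ℕ := Function.minimalPeriod (step P) g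

open Classical in
/-- The edge set of the circuit through `g`. -/
noncomputable def orbit (P : Sys n) (g : Dart n) : Finset (Sym2 (Fin n)) :=
  Finset.univ.filter fun e => ∃ k, edge ((step P)^[k] g) = e

/-- An enumeration of darts. -/
def dartIndex (g : Dart n) : ℕ := g.1.val * n + g.2.val

theorem dartIndex_lt (g : Dart n) : dartIndex g < n ^ 2 := by
  have h1 := g.1.isLt
  have h2 := g.2.isLt
  unfold dartIndex
  nlinarith

theorem dartIndex_inj {g h : Dart n} (e : dartIndex g = dartIndex h) : g = h := by
  have h1 := g.2.isLt
  have h2 := h.2.isLt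
  unfold dartIndex at e
  have hn : 0 < n := by omega
  have e1 : g.1.val = h.1.val := by
    have := congrArg (fun x => x / n) e
    simpa [Nat.mul_comm _ n, Nat.mul_add_div hn, Nat.div_eq_of_lt h1, Nat.div_eq_of_lt h2] using this
  rw [e1] at e
  exact Prod.ext (Fin.ext e1) (Fin.ext (by omega))

open Classical in
/-- The circuits of the first `m` darts. -/
noncomputable def processed (U : Finset (Sym2 (Fin n))) (P : Sys n) (m : ℕ) :
    Finset (Sym2 (Fin n)) :=
  U.filter fun e => ∃ g, dartIndex g < m ∧ edge g ∈ U ∧ e ∈ orbit P g

/-- The flipped edges at a stage: finished circuits and a segment of the current one. -/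
noncomputable def flipped (U : Finset (Sym2 (Fin n))) (P : Sys n) (m : ℕ) (g : Dart n) (l : ℕ) :
    Finset (Sym2 (Fin n)) :=
  processed U P m ∪ segment P g l

/-- The junction at which a dart is followed by the next one. -/
def junctionAfter (P : Sys n) (h : Dart n) : Junction n := (h.2, h.1, P h.2 h.1)

namespace Alternating

variable (A : Alternating M M' P)
include A

theorem invol (v w : Fin n) : P v (P v w) = w := (A.fits v).1 w

theorem step_swap (g : Dart n) : step P (step P g).swap = g.swap := by
  simp [A.invol, Prod.ext_iff]

theorem iterate_swap (k : ℕ) (g : Dart n) :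
    (step P)^[k] ((step P)^[k] g).swap = g.swap := by
  induction k with
  | zero => simp
  | succ k ih => rw [Function.iterate_succ_apply' (step P) k g, Function.iterate_succ_apply,
      A.step_swap, ih]

theorem edge_step_mem {g : Dart n} (hg : edge g ∈ M ∆ M') : edge (step P g) ∈ M ∆ M' :=
  fitsAt_mem (A.fits g.2) (by rw [Sym2.eq_swap]; exact hg)

theorem edge_iterate_mem {g : Dart n} (hg : edge g ∈ M ∆ M') (k : ℕ) :
    edge ((step P)^[k] g) ∈ M ∆ M' := by
  induction k with
  | zero => exact hg
  | succ k ih => rw [Function.iterate_succ_apply']; exact A.edge_step_mem ih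

theorem colour_step {g : Dart n} (hg : edge g ∈ M ∆ M') :
    edge (step P g) ∈ M ↔ edge g ∉ M := by
  have := (A.fits g.2).2.2 g.1 (by rw [Sym2.eq_swap]; exact hg) (Finset.notMem_empty _)
  rw [Sym2.eq_swap (a := g.2) (b := g.1)] at this
  simp only [edge, step_apply] at *
  tauto

theorem sign_step {g : Dart n} (hg : edge g ∈ M ∆ M') : sign M (step P g) = - sign M g := by
  unfold sign
  by_cases h : edge g ∈ M
  · rw [if_pos h, if_neg (fun h' => (A.colour_step hg).mp h' h)]; norm_num
  · rw [if_neg h, if_pos ((A.colour_step hg).mpr h)]

theorem sign_iterate {g : Dart n} (hg : edge g ∈ M ∆ M') (k : ℕ) :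
    sign M ((step P)^[k] g) = (-1) ^ k * sign M g := by
  induction k with
  | zero => simp
  | succ k ih =>
    rw [Function.iterate_succ_apply', A.sign_step (A.edge_iterate_mem hg k), ih, pow_succ]; ring

omit A in
theorem periodic (g : Dart n) : g ∈ Function.periodicPts (step P) :=
  (step P).injective.mem_periodicPts g

omit A in
theorem period_pos (g : Dart n) : 0 < period P g :=
  Function.minimalPeriod_pos_of_mem_periodicPts (periodic g)

omit A in
theorem period_iterate (g : Dart n) (k : ℕ) : period P ((step P)^[k] g) = period P g :=
  Function.minimalPeriod_apply_iterate (periodic g) k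

omit A in
theorem iterate_period (g : Dart n) : (step P)^[period P g] g = g :=
  Function.isPeriodicPt_minimalPeriod _ g

omit A in
theorem iterate_period_mul (g : Dart n) (c : ℕ) : (step P)^[period P g * c] g = g :=
  (Function.isPeriodicPt_minimalPeriod _ g).mul_const c

omit A in
theorem iterate_add_period (g : Dart n) (k : ℕ) :
    (step P)^[period P g + k] g = (step P)^[k] g := by
  rw [add_comm, Function.iterate_add_apply, iterate_period]

omit A in
theorem period_le (g : Dart n) : period P g ≤ n ^ 2 := by
  have h : ((Finset.range (period P g)).image fun k => (step P)^[k] g).card = period P g := by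
    rw [Finset.card_image_of_injOn, Finset.card_range]
    intro a ha b hb h
    exact Function.iterate_injOn_Iio_minimalPeriod (f := step P) (x := g)
      (Finset.mem_range.mp ha) (Finset.mem_range.mp hb) h
  have := Finset.card_le_univ ((Finset.range (period P g)).image fun k => (step P)^[k] g)
  rw [h, Fintype.card_prod, Fintype.card_fin] at this
  rw [pow_two]
  exact this

theorem edge_injOn {g : Dart n} (hg : edge g ∈ M ∆ M') {a b : ℕ} (ha : a < b) (hb : b < period P g) :
    edge ((step P)^[a] g) ≠ edge ((step P)^[b] g) := by
  intro h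
  set f := (step P)^[a] g with hf
  obtain ⟨c, rfl⟩ : ∃ c, b = c + a := ⟨b - a, by omega⟩
  rw [Function.iterate_add_apply, ← hf] at h
  rcases (edge_eq_iff _ _).mp h with h' | h'
  · have := Function.IsPeriodicPt.minimalPeriod_le (n := c) (by omega) h'.symm
    have e : period P f = period P g := period_iterate g a
    unfold period at e hb
    omega
  · have hfU : edge f ∈ M ∆ M' := A.edge_iterate_mem hg a
    have hs := A.sign_iterate hfU c
    have e : sign M ((step P)^[c] f) = sign M f := by unfold sign; rw [h]
    rw [e] at hs
    have heven : Even c := by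
      rcases Nat.even_or_odd c with he | ho
      · exact he
      · exfalso
        rw [ho.neg_one_pow] at hs
        rcases sign_or M f with h1 | h1 <;> rw [h1] at hs <;> norm_num at hs
    obtain ⟨k, rfl⟩ := heven
    have h1 : (step P)^[k] ((step P)^[k] f) = f.swap := by
      rw [← Function.iterate_add_apply]
      conv_rhs => rw [h', Prod.swap_swap]
    have h2 : (step P)^[k] ((step P)^[k] f).swap = f.swap := A.iterate_swap k f
    have h3 := ((step P).injective.iterate k) (h1.trans h2.symm)
    have hU := A.edge_iterate_mem hfU k
    have h4 := A.loopless _ hU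
    exact h4 (Sym2.mk_isDiag_iff.mpr (congrArg Prod.fst h3))

theorem segment_subset {g : Dart n} (hg : edge g ∈ M ∆ M') (l : ℕ) :
    segment P g l ⊆ M ∆ M' := fun e he => by
  obtain ⟨k, -, rfl⟩ := Finset.mem_image.mp he
  exact A.edge_iterate_mem hg k

theorem segment_degChange {g : Dart n} (hg : edge g ∈ M ∆ M') {l : ℕ} (hl : l ≤ period P g)
    (w : Fin n) :
    degChange M (segment P g l) w = sign M g * (if w = g.1 then 1 else 0)
      - sign M ((step P)^[l] g) * (if w = ((step P)^[l] g).1 then 1 else 0) := by
  induction l with
  | zero =>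
    simp only [segment, Finset.range_zero, Finset.image_empty, degChange,
       Finset.notMem_empty, if_false, Finset.sum_const_zero, Function.iterate_zero, id_eq]
    exact (sub_self _).symm
  | succ l ih =>
    have hsucc : segment P g (l + 1) = segment P g l ∪ {edge ((step P)^[l] g)} := by
      rw [segment, Finset.range_add_one, Finset.image_insert, Finset.insert_eq, Finset.union_comm]
      rfl
    have hdis : Disjoint (segment P g l) {edge ((step P)^[l] g)} := by
      rw [Finset.disjoint_singleton_right]
      intro h
      obtain ⟨k, hk, he⟩ := Finset.mem_image.mp h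
      exact A.edge_injOn hg (Finset.mem_range.mp hk) (by omega) he
    have hU := A.edge_iterate_mem hg l
    have hne : ((step P)^[l] g).1 ≠ ((step P)^[l] g).2 := A.loopless.ne hU
    rw [hsucc, degChange_union hdis, ih (by omega), edge, degChange_single M hne,
      Function.iterate_succ_apply', A.sign_step hU, step_apply]
    change _ + sign M ((step P)^[l] g) * _ = _
    ring

theorem orbit_eq_segment (g : Dart n) : orbit P g = segment P g (period P g) := by
  classical
  ext e
  simp only [orbit, segment, Finset.mem_filter, Finset.mem_univ, true_and, Finset.mem_image,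
    Finset.mem_range]
  constructor
  · rintro ⟨k, rfl⟩
    exact ⟨k % period P g, Nat.mod_lt _ (period_pos g),
      congrArg edge (Function.iterate_mod_minimalPeriod_eq (f := step P) (x := g) (n := k))⟩
  · rintro ⟨k, -, rfl⟩; exact ⟨k, rfl⟩

omit A in
theorem edge_mem_orbit (g : Dart n) : edge g ∈ orbit P g := by
  classical
  simp only [orbit, Finset.mem_filter, Finset.mem_univ, true_and]
  exact ⟨0, rfl⟩

omit A in
theorem orbit_iterate (g : Dart n) (k : ℕ) : orbit P ((step P)^[k] g) = orbit P g := by
  classical
  ext e
  simp only [orbit, Finset.mem_filter, Finset.mem_univ, true_and]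
  constructor
  · rintro ⟨j, rfl⟩; exact ⟨j + k, by rw [Function.iterate_add_apply]⟩
  · rintro ⟨j, rfl⟩
    have hk : k ≤ period P g * k := Nat.le_mul_of_pos_left k (period_pos g)
    refine ⟨j + (period P g * k - k), congrArg edge ?_⟩
    rw [← Function.iterate_add_apply, show j + (period P g * k - k) + k = j + period P g * k by omega,
      Function.iterate_add_apply, iterate_period_mul]

theorem orbit_swap_subset (g : Dart n) : orbit P g.swap ⊆ orbit P g := by
  classical
  intro e he
  simp only [orbit, Finset.mem_filter, Finset.mem_univ, true_and] at he ⊢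
  obtain ⟨j, rfl⟩ := he
  have hj : j ≤ period P g * j := Nat.le_mul_of_pos_left j (period_pos g)
  refine ⟨period P g * j - j, ?_⟩
  have h := A.iterate_swap j ((step P)^[period P g * j - j] g)
  rw [← Function.iterate_add_apply (step P) j (period P g * j - j) g,
    show j + (period P g * j - j) = period P g * j by omega, iterate_period_mul] at h
  rw [h, edge_swap]

theorem orbit_swap (g : Dart n) : orbit P g.swap = orbit P g :=
  (A.orbit_swap_subset g).antisymm (by simpa using A.orbit_swap_subset g.swap)

theorem orbit_of_mem {g h : Dart n} (hh : edge h ∈ orbit P g) : orbit P h = orbit P g := by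
  classical
  simp only [orbit, Finset.mem_filter, Finset.mem_univ, true_and] at hh
  obtain ⟨k, hk⟩ := hh
  rcases (edge_eq_iff _ _).mp hk.symm with rfl | rfl
  · exact orbit_iterate g k
  · rw [A.orbit_swap]; exact orbit_iterate g k

omit A in
theorem processed_zero : processed (M ∆ M') P 0 = ∅ := by
  classical
  simp [processed]

omit A in
theorem processed_all : processed (M ∆ M') P (n ^ 2) = M ∆ M' := by
  classical
  refine Finset.filter_true_of_mem fun e he => ?_
  induction e using Sym2.ind with
  | h a b => exact ⟨(a, b), dartIndex_lt _, he, edge_mem_orbit _⟩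

omit A in
theorem processed_subset (m : ℕ) : processed (M ∆ M') P m ⊆ M ∆ M' := Finset.filter_subset _ _

theorem processed_orbit {m : ℕ} {g : Dart n} (hg : edge g ∈ M ∆ M')
    (h : edge g ∈ processed (M ∆ M') P m) : orbit P g ⊆ processed (M ∆ M') P m := by
  classical
  intro e he
  simp only [processed, Finset.mem_filter] at h ⊢
  obtain ⟨-, g', h1, h2, h3⟩ := h
  refine ⟨?_, g', h1, h2, A.orbit_of_mem h3 ▸ he⟩
  rw [A.orbit_eq_segment g] at he
  exact A.segment_subset hg _ he

theorem processed_disjoint {m : ℕ} {g : Dart n} (hg : edge g ∈ M ∆ M')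
    (h : edge g ∉ processed (M ∆ M') P m) : Disjoint (processed (M ∆ M') P m) (orbit P g) := by
  classical
  rw [Finset.disjoint_right]
  intro e he hK
  induction e using Sym2.ind with
  | h a b =>
    have h1 : orbit P (a, b) = orbit P g := A.orbit_of_mem (h := (a, b)) he
    have h2 : edge (a, b) ∈ M ∆ M' := processed_subset m hK
    exact h (A.processed_orbit h2 hK (h1 ▸ edge_mem_orbit g))

theorem processed_succ (m : ℕ) :
    processed (M ∆ M') P (m + 1) = processed (M ∆ M') P m ∨
    ∃ g, edge g ∈ M ∆ M' ∧ edge g ∉ processed (M ∆ M') P m ∧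
      processed (M ∆ M') P (m + 1) = processed (M ∆ M') P m ∪ orbit P g := by
  classical
  by_cases h : ∃ g, dartIndex g = m ∧ edge g ∈ M ∆ M' ∧ edge g ∉ processed (M ∆ M') P m
  · obtain ⟨g, h1, h2, h3⟩ := h
    refine Or.inr ⟨g, h2, h3, ?_⟩
    ext e
    simp only [processed, Finset.mem_union, Finset.mem_filter]
    constructor
    · rintro ⟨he, g', hi, hU, ho⟩
      rcases Nat.lt_succ_iff_lt_or_eq.mp hi with hi | hi
      · exact Or.inl ⟨he, g', hi, hU, ho⟩
      · obtain rfl : g' = g := dartIndex_inj (hi.trans h1.symm)
        exact Or.inr ho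
    · rintro (⟨he, g', hi, hU, ho⟩ | ho)
      · exact ⟨he, g', by omega, hU, ho⟩
      · refine ⟨?_, g, by omega, h2, ho⟩
        rw [A.orbit_eq_segment g] at ho
        exact A.segment_subset h2 _ ho
  · left
    push Not at h
    refine le_antisymm (fun e he => ?_) (fun e he => ?_)
    · simp only [processed, Finset.mem_filter] at he
      obtain ⟨he', g', hi, hU, ho⟩ := he
      rcases Nat.lt_succ_iff_lt_or_eq.mp hi with hi | hi
      · simp only [processed, Finset.mem_filter]; exact ⟨he', g', hi, hU, ho⟩
      · exact A.processed_orbit hU (h g' hi hU) ho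
    · simp only [processed, Finset.mem_filter] at he ⊢
      obtain ⟨he', g', hi, hU, ho⟩ := he
      exact ⟨he', g', by omega, hU, ho⟩

theorem processed_degChange (m : ℕ) (w : Fin n) :
    degChange M (processed (M ∆ M') P m) w = 0 := by
  induction m with
  | zero => simp [processed_zero, degChange]
  | succ m ih =>
    rcases A.processed_succ m with h | ⟨g, h1, h2, h⟩
    · rw [h, ih]
    · rw [h, degChange_union (A.processed_disjoint h1 h2), ih, A.orbit_eq_segment g,
        A.segment_degChange h1 le_rfl, iterate_period]
      ring

/-- Where a segment is left, a junction is met. -/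
theorem segment_end (g : Dart n) (l : ℕ) (h : Dart n) (h1 : edge h ∈ segment P g l)
    (h2 : edge (step P h) ∉ segment P g l) :
    (h.2, h.1) ∈ exceptional (junctionAfter P ((step P).symm g))
      (junctionAfter P ((step P).symm ((step P)^[l] g))) := by
  classical
  obtain ⟨k, hk, he⟩ := Finset.mem_image.mp h1
  rw [Finset.mem_range] at hk
  rcases (edge_eq_iff _ _).mp he.symm with rfl | rfl
  · have hkl : k + 1 = l := by
      by_contra hne
      refine h2 (Finset.mem_image.mpr ⟨k + 1, Finset.mem_range.mpr (by omega), ?_⟩)
      rw [Function.iterate_succ_apply']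
    rw [← hkl, Function.iterate_succ_apply', Equiv.symm_apply_apply]
    simp only [exceptional, junctionAfter, Finset.mem_insert, Finset.mem_singleton, true_or, or_true]
  · rcases k with _ | k
    · have e := Equiv.apply_symm_apply (step P) g
      rw [step_apply, Prod.ext_iff] at e
      simp only [exceptional, junctionAfter, Finset.mem_insert, Finset.mem_singleton]
      right; left
      simp only [Function.iterate_zero, id_eq, Prod.fst_swap, Prod.snd_swap]
      exact Prod.ext e.1.symm e.2.symm
    · exfalso
      refine h2 (Finset.mem_image.mpr ⟨k, Finset.mem_range.mpr (by omega), ?_⟩)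
      rw [Function.iterate_succ_apply', A.step_swap, edge_swap]

/-- Away from the two ends of the segment, colours of `M ∆ F` alternate. -/
theorem fits_flipped (m : ℕ) {g : Dart n} (hg : edge g ∈ M ∆ M') (l : ℕ) :
    P ∈ compatible (M ∆ M') (M ∆ flipped (M ∆ M') P m g l)
      (junctionAfter P ((step P).symm g)) (junctionAfter P ((step P).symm ((step P)^[l] g))) := by
  classical
  set J := junctionAfter P ((step P).symm g) with hJ
  set J' := junctionAfter P ((step P).symm ((step P)^[l] g)) with hJ'
  have hP1 : P J.1 J.2.1 = J.2.2 := rfl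
  have hP2 : P J'.1 J'.2.1 = J'.2.2 := rfl
  simp only [compatible, Finset.mem_filter, Finset.mem_univ, true_and]
  refine ⟨fun v => ⟨(A.fits v).1, (A.fits v).2.1, fun w hw hX => ?_⟩, hP1, hP2⟩
  set h : Dart n := (w, v) with hh
  have hhU : edge h ∈ M ∆ M' := by rw [hh, edge, Sym2.eq_swap]; exact hw
  have hTh : step P h = (v, P v w) := rfl
  have hK : edge h ∈ processed (M ∆ M') P m ↔ edge (step P h) ∈ processed (M ∆ M') P m := by
    constructor
    · intro hk
      refine A.processed_orbit hhU hk ?_
      simp only [orbit, Finset.mem_filter, Finset.mem_univ, true_and]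
      exact ⟨1, rfl⟩
    · intro hk
      refine A.processed_orbit (A.edge_step_mem hhU) hk ?_
      have e1 : orbit P (step P h) = orbit P h := orbit_iterate h 1
      rw [e1]
      exact edge_mem_orbit h
  have key := A.segment_end g l
  have hS : edge h ∈ segment P g l ↔ edge (step P h) ∈ segment P g l := by
    by_contra hne
    rw [not_iff] at hne
    by_cases h0 : edge h ∈ segment P g l
    · exact hX (key h h0 (fun h' => (hne.mpr h') h0))
    · have h3 := key (step P h).swap (by rw [edge_swap]; exact hne.mp h0)
        (by rw [A.step_swap, edge_swap]; exact h0)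
      rw [hTh] at h3
      have h4 := exceptional_closed A.invol hP1 hP2 (v := v) (w := P v w) h3
      rw [A.invol] at h4
      exact hX h4
  have hcol := A.colour_step hhU
  have e1 : s(v, w) = edge h := Sym2.eq_swap
  have e2 : s(v, P v w) = edge (step P h) := rfl
  rw [e1, e2]
  simp only [Finset.mem_symmDiff, flipped, Finset.mem_union]
  by_cases a1 : edge h ∈ M <;> by_cases a2 : edge h ∈ processed (M ∆ M') P m <;>
    by_cases a3 : edge h ∈ segment P g l <;>
    simp only [a1, a2, a3, ← hK, ← hS, hcol, not_true, not_false_iff, true_or, or_true, false_or,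
      or_false, and_true, true_and, and_false, false_and, iff_true, iff_false, true_iff, false_iff]

end Alternating

end Vale.Agent.P335
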