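import Mathlib.Tactic
import Mathlib.Data.ZMod.Basic

/-!
A discrete climbing lemma on a grid: if `P` holds on the left and top sides and fails on the rest
of the bottom and right sides, the two special corners are joined along the interface of `P`.
-/

namespace Vale.Agent.P335

open Finset Relation

/-- Two grid points differing by at most one in each coordinate. -/
def Close (a b : ℕ × ℕ) : Prop :=
  a.1 ≤ b.1 + 1 ∧ b.1 ≤ a.1 + 1 ∧ a.2 ≤ b.2 + 1 ∧ b.2 ≤ a.2 + 1

/-- A point of `P` in the box next to a point of the box outside `P`. -/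
def Interface (p q : ℕ) (P : ℕ → ℕ → Prop) (a : ℕ × ℕ) : Prop :=
  a.1 ≤ p ∧ a.2 ≤ q ∧ P a.1 a.2 ∧ ∃ b : ℕ × ℕ, b.1 ≤ p ∧ b.2 ≤ q ∧ Close a b ∧ ¬ P b.1 b.2

theorem telescope (p : ℕ) (h : ℕ → ℕ → ZMod 2) (q : ℕ) :
    ∑ i ∈ range p, ∑ j ∈ range q, (h i j + h i (j + 1))
      = ∑ i ∈ range p, (h i 0 + h i q) := by
  refine Finset.sum_congr rfl fun i _ => ?_
  have two : ∀ x : ZMod 2, x + x = 0 := by decide
  induction q with
  | zero => simp [two]
  | succ q ih =>
    rw [Finset.sum_range_succ, ih]
    calc _ = h i 0 + (h i q + h i q) + h i (q + 1) := by abel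
      _ = _ := by rw [two]; simp

theorem climb {p q : ℕ} (hp : 1 ≤ p) (hq : 1 ≤ q) (P : ℕ → ℕ → Prop)
    (hleft : ∀ j ≤ q, P 0 j) (htop : ∀ i ≤ p, P i q)
    (hbot : ∀ i, 1 ≤ i → i ≤ p → ¬ P i 0) (hright : ∀ j, j < q → ¬ P p j) :
    Relation.ReflTransGen (fun a b => Interface p q P a ∧ Interface p q P b ∧ Close a b)
      (0, 0) (p, q) := by
  classical
  let Edge := (ℕ × ℕ) × (ℕ × ℕ)
  let mixed : Edge → Prop := fun e => (P e.1.1 e.1.2 ↔ ¬ P e.2.1 e.2.2)
  let corners : ℕ → ℕ → Finset (ℕ × ℕ) := fun i j =>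
    {(i, j), (i + 1, j), (i, j + 1), (i + 1, j + 1)}
  let inSq : ℕ → ℕ → Edge → Prop := fun i j e => e.1 ∈ corners i j ∧ e.2 ∈ corners i j ∧ mixed e
  let adj : Edge → Edge → Prop := fun e e' =>
    ∃ i j, i < p ∧ j < q ∧ inSq i j e ∧ inSq i j e'
  let top : Edge → ℕ × ℕ := fun e => if P e.1.1 e.1.2 then e.1 else e.2
  have hclose : ∀ {i j : ℕ} {a b : ℕ × ℕ}, a ∈ corners i j → b ∈ corners i j → Close a b := by
    intro i j a b ha hb
    simp only [corners, Finset.mem_insert, Finset.mem_singleton] at ha hb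
    rcases ha with rfl | rfl | rfl | rfl <;> rcases hb with rfl | rfl | rfl | rfl <;>
      simp [Close] <;> omega
  have hbox : ∀ {i j : ℕ} {a : ℕ × ℕ}, i < p → j < q → a ∈ corners i j → a.1 ≤ p ∧ a.2 ≤ q := by
    intro i j a hi hj ha
    simp only [corners, Finset.mem_insert, Finset.mem_singleton] at ha
    rcases ha with rfl | rfl | rfl | rfl <;> constructor <;> simp <;> omega
  have htopP : ∀ {i j : ℕ} {e : Edge}, i < p → j < q → inSq i j e →
      top e ∈ corners i j ∧ Interface p q P (top e) := by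
    intro i j e hi hj ⟨h1, h2, hm⟩
    by_cases h : P e.1.1 e.1.2
    · have : top e = e.1 := if_pos h
      rw [this]
      exact ⟨h1, (hbox hi hj h1).1, (hbox hi hj h1).2, h, e.2, (hbox hi hj h2).1,
        (hbox hi hj h2).2, hclose h1 h2, hm.mp h⟩
    · have : top e = e.2 := if_neg h
      rw [this]
      exact ⟨h2, (hbox hi hj h2).1, (hbox hi hj h2).2, by by_contra hc; exact h (hm.mpr hc), e.1,
        (hbox hi hj h1).1, (hbox hi hj h1).2, hclose h2 h1, h⟩
  let start : Edge := ((0, 0), (1, 0))
  let fin : Edge := ((p, q - 1), (p, q))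
  let R : Edge → Prop := Relation.ReflTransGen adj start
  suffices hR : R fin by
    have e1 : top start = (0, 0) := if_pos (hleft 0 (Nat.zero_le _))
    have e2 : top fin = (p, q) := if_neg (hright (q - 1) (by omega))
    rw [← e1, ← e2]
    refine Relation.ReflTransGen.lift top (fun e e' h => ?_) _ _ hR
    obtain ⟨i, j, hi, hj, h, h'⟩ := h
    exact ⟨(htopP hi hj h).2, (htopP hi hj h').2, hclose (htopP hi hj h).1 (htopP hi hj h').1⟩
  by_contra hfin
  let g : ℕ → ℕ → ZMod 2 := fun i j => if P i j then 1 else 0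
  let val : Edge → ZMod 2 := fun e =>
    if R e then g e.1.1 e.1.2 + g e.2.1 e.2.2 else 0
  let H : ℕ → ℕ → ZMod 2 := fun i j => val ((i, j), (i + 1, j))
  let V : ℕ → ℕ → ZMod 2 := fun j i => val ((i, j), (i, j + 1))
  have two : ∀ x : ZMod 2, x + x = 0 := by decide
  have hsq : ∀ i j, i < p → j < q → H i j + H i (j + 1) + (V j i + V j (i + 1)) = 0 := by
    intro i j hi hj
    have hval : ∀ (c : ZMod 2) (e : Edge), e.1 ∈ corners i j → e.2 ∈ corners i j →
        (∀ e', inSq i j e' → (R e' ↔ c = 1)) →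
        val e = if c = 1 then g e.1.1 e.1.2 + g e.2.1 e.2.2 else 0 := by
      intro c e h1 h2 hc
      by_cases hm : mixed e
      · simp only [val, hc e ⟨h1, h2, hm⟩]
      · have h0 : g e.1.1 e.1.2 + g e.2.1 e.2.2 = 0 := by
          simp only [g]
          by_cases a : P e.1.1 e.1.2 <;> by_cases b : P e.2.1 e.2.2
          · simp only [a, b, if_true]; exact two 1
          · exact absurd (show mixed e from ⟨fun _ => b, fun _ => a⟩) hm
          · exact absurd (show mixed e from ⟨fun h => absurd h a, fun h => absurd b h⟩) hm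
          · simp [a, b]
        simp [val, h0]
    obtain ⟨c, hc⟩ : ∃ c : ZMod 2, ∀ e', inSq i j e' → (R e' ↔ c = 1) := by
      by_cases h : ∃ e', inSq i j e' ∧ R e'
      · obtain ⟨e0, h0, hR0⟩ := h
        exact ⟨1, fun e' he' => ⟨fun _ => rfl, fun _ => hR0.tail ⟨i, j, hi, hj, h0, he'⟩⟩⟩
      · exact ⟨0, fun e' he' => ⟨fun hr => absurd ⟨e', he', hr⟩ h, fun h0 => absurd h0 (by decide)⟩⟩
    have hh : ∀ a b, a ∈ corners i j → b ∈ corners i j →
        val (a, b) = if c = 1 then g a.1 a.2 + g b.1 b.2 else 0 := fun a b h1 h2 =>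
      hval c (a, b) h1 h2 hc
    simp only [H, V]
    rw [hh _ _ (by simp [corners]) (by simp [corners]),
      hh _ _ (by simp [corners]) (by simp [corners]),
      hh _ _ (by simp [corners]) (by simp [corners]),
      hh _ _ (by simp [corners]) (by simp [corners])]
    split_ifs
    · linear_combination (norm := skip) two (g i j) + two (g (i + 1) j) + two (g i (j + 1))
        + two (g (i + 1) (j + 1))
      ring
    · simp
  have key : ∑ i ∈ range p, (H i 0 + H i q) + ∑ j ∈ range q, (V j 0 + V j p) = 0 := by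
    rw [← telescope p H q, ← telescope q V p, Finset.sum_comm (f := fun j i => V j i + V j (i + 1)),
      ← Finset.sum_add_distrib]
    refine Finset.sum_eq_zero fun i hi => ?_
    rw [← Finset.sum_add_distrib]
    exact Finset.sum_eq_zero fun j hj => hsq i j (Finset.mem_range.mp hi) (Finset.mem_range.mp hj)
  have hH : ∑ i ∈ range p, (H i 0 + H i q) = 1 := by
    rw [Finset.sum_eq_single 0]
    · have hs : R start := Relation.ReflTransGen.refl
      simp only [H, val, g]
      rw [if_pos hs, if_pos (hleft 0 (Nat.zero_le _)), if_neg (hbot 1 le_rfl hp),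
        if_pos (hleft q le_rfl), if_pos (htop 1 hp)]
      simp [two]
    · intro i hi h0
      have := Finset.mem_range.mp hi
      simp only [H, val, g]
      rw [if_neg (hbot i (Nat.pos_of_ne_zero h0) (by omega)),
        if_neg (hbot (i + 1) (by omega) (by omega)), if_pos (htop i (by omega)),
        if_pos (htop (i + 1) (by omega))]
      simp [two]
    · intro h; exact absurd (Finset.mem_range.mpr hp) h
  have hV : ∑ j ∈ range q, (V j 0 + V j p) = 0 := by
    refine Finset.sum_eq_zero fun j hj => ?_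
    have := Finset.mem_range.mp hj
    simp only [V, val, g]
    rw [if_pos (hleft j (by omega)), if_pos (hleft (j + 1) (by omega)),
      if_neg (hright j (by omega))]
    rcases Nat.lt_or_ge (j + 1) q with h | h
    · rw [if_neg (hright (j + 1) h)]; simp [two]
    · have hjq : j = q - 1 := by omega
      have hjq' : j + 1 = q := by omega
      rw [hjq', hjq]
      simp only [fin] at hfin
      rw [if_neg hfin]; simp [two]
  rw [hH, hV] at key
  exact absurd key (by decide)

end Vale.Agent.P335
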