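import Mathlib.Data.Finset.Sym
import Mathlib.Data.Fintype.Sets
import Mathlib.Data.Real.Basic
import Mathlib.Data.Matrix.Basic
import Mathlib.LinearAlgebra.Matrix.Notation
import Mathlib.Data.Sym.Card
import Mathlib.Algebra.BigOperators.Ring.Finset

/-!
The switch chain on simple graphs with a given degree vector, exactly as in the problem:
a graph on `Fin n` is its set of edges, a loopless finset of unordered pairs.
-/

namespace Vale.Agent.P335

variable {n : ℕ}

/-- Number of neighbours of `v` in the edge set `E`. -/
def deg (E : Finset (Sym2 (Fin n))) (v : Fin n) : ℕ :=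
  (Finset.univ.filter fun w => s(v, w) ∈ E).card

/-- The simple graphs on `Fin n` in which each vertex `v` has degree `d v`. -/
abbrev Realization (d : Fin n → ℕ) : Type :=
  {E : Finset (Sym2 (Fin n)) // (∀ e ∈ E, ¬ e.IsDiag) ∧ ∀ v, deg E v = d v}

/-- The perfect matchings of the complete graph on the vertex set `S`. -/
def matchings (S : Finset (Fin n)) : Finset (Finset (Sym2 (Fin n))) :=
  S.sym2.powerset.filter fun F => (∀ e ∈ F, ¬ e.IsDiag) ∧ ∀ v ∈ S, deg F v = 1

/-- The ordered pairs of distinct perfect matchings on `S`. -/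
def matchingPairs (S : Finset (Fin n)) :
    Finset (Finset (Sym2 (Fin n)) × Finset (Sym2 (Fin n))) :=
  (matchings S ×ˢ matchings S).filter fun p => p.1 ≠ p.2

/-- Replace `p.1` by `p.2` if all of `p.1` is present and all of `p.2` is absent; else stay. -/
def applyMove (E : Finset (Sym2 (Fin n))) (p : Finset (Sym2 (Fin n)) × Finset (Sym2 (Fin n))) :
    Finset (Sym2 (Fin n)) :=
  if p.1 ⊆ E ∧ Disjoint p.2 E then (E \ p.1) ∪ p.2 else E

/-- Transition probabilities of the switch chain. -/
noncomputable def switchChain (d : Fin n → ℕ) :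
    Matrix (Realization d) (Realization d) ℝ := fun G G' =>
  (1 / 2) * (if G = G' then 1 else 0) +
    (1 / 2) * ((1 / (Nat.choose n 4 : ℝ)) *
      ∑ S ∈ (Finset.univ : Finset (Fin n)).powersetCard 4,
        (1 / ((matchingPairs S).card : ℝ)) *
          ∑ p ∈ matchingPairs S, if applyMove G.1 p = G'.1 then 1 else 0)

/-- Total variation distance to the uniform distribution after `t` steps from `G`. -/
noncomputable def tvDist (d : Fin n → ℕ) (t : ℕ) (G : Realization d) : ℝ :=
  (1 / 2) * ∑ G', |(switchChain d ^ t) G G' - 1 / (Fintype.card (Realization d) : ℝ)|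

end Vale.Agent.P335
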