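import Mathlib.Tactic
import Vale.Agent.P335.Defs
import Mathlib.Data.Finset.SymmDiff
import Mathlib.Algebra.Order.BigOperators.Ring.Finset

/-! Degrees of edge sets, degree changes under edge flips, small balls of edge sets. -/

namespace Vale.Agent.P335

open Finset
open scoped symmDiff

variable {n : ℕ}

/-- Edge sets without loops. -/
def Loopless (E : Finset (Sym2 (Fin n))) : Prop := ∀ e ∈ E, ¬ e.IsDiag

theorem Loopless.ne {E : Finset (Sym2 (Fin n))} (h : Loopless E) {a b : Fin n}
    (hm : s(a, b) ∈ E) : a ≠ b := fun hab => h _ hm (Sym2.mk_isDiag_iff.mpr hab)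

theorem Loopless.symmDiff {A B : Finset (Sym2 (Fin n))} (hA : Loopless A) (hB : Loopless B) :
    Loopless (A ∆ B) := fun e he => by
  rcases Finset.mem_symmDiff.mp he with h | h
  · exact hA e h.1
  · exact hB e h.1

theorem deg_insert {E : Finset (Sym2 (Fin n))} {a b : Fin n} (hab : a ≠ b)
    (h : s(a, b) ∉ E) (v : Fin n) :
    (deg (insert s(a, b) E) v : ℤ)
      = deg E v + (if v = a then 1 else 0) + (if v = b then 1 else 0) := by
  have key : ∀ w, (if s(v, w) ∈ insert s(a, b) E then (1 : ℤ) else 0)
      = (if s(v, w) ∈ E then 1 else 0) + (if v = a then (if w = b then 1 else 0) else 0)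
        + (if v = b then (if w = a then 1 else 0) else 0) := by
    intro w
    by_cases h1 : v = a
    · subst h1
      by_cases h2 : w = b
      · subst h2; simp [h, hab]
      · simp [h2, hab, Sym2.congr_right]
    · by_cases h3 : v = b
      · subst h3
        by_cases h4 : w = a
        · subst h4; simp [Sym2.eq_swap (a := v), h, h1]
        · simp [h1, h4]
      · simp [h1, h3]
  have e : ∀ F, (deg F v : ℤ) = ∑ w, if s(v, w) ∈ F then 1 else 0 := fun F => by
    simp [deg]
  rw [e, e, Finset.sum_congr rfl (fun w _ => key w)]
  simp only [Finset.sum_add_distrib]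
  split_ifs <;> simp

theorem deg_erase {E : Finset (Sym2 (Fin n))} {a b : Fin n} (hab : a ≠ b)
    (h : s(a, b) ∈ E) (v : Fin n) :
    (deg (E.erase s(a, b)) v : ℤ)
      = deg E v - (if v = a then 1 else 0) - (if v = b then 1 else 0) := by
  have := deg_insert hab (Finset.notMem_erase s(a, b) E) v
  rw [Finset.insert_erase h] at this
  linarith

/-- The finsets of edges at distance at most `D` from `A`. -/
noncomputable def ball (D : ℕ) (A : Finset (Sym2 (Fin n))) : Finset (Finset (Sym2 (Fin n))) :=
  Finset.univ.filter fun B => (A ∆ B).card ≤ D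

theorem card_small (n D : ℕ) :
    ((Finset.univ : Finset (Finset (Sym2 (Fin n)))).filter fun S => S.card ≤ D).card
      ≤ (n ^ 2 + 1) ^ D := by
  induction D with
  | zero =>
    rw [pow_zero, Finset.card_le_one]
    intro a ha b hb
    simp only [Finset.mem_filter, Nat.le_zero, Finset.card_eq_zero] at ha hb
    rw [ha.2, hb.2]
  | succ D ih =>
    have hsub : ((Finset.univ : Finset (Finset (Sym2 (Fin n)))).filter fun S => S.card ≤ D + 1) ⊆
        (((Finset.univ : Finset (Finset (Sym2 (Fin n)))).filter fun S => S.card ≤ D) ×ˢ
          (Finset.univ : Finset (Option (Sym2 (Fin n))))).image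
          (fun p => p.2.elim p.1 (fun e => insert e p.1)) := by
      intro S hS
      simp only [Finset.mem_filter, Finset.mem_univ, true_and] at hS
      simp only [Finset.mem_image, Finset.mem_product, Finset.mem_filter, Finset.mem_univ,
        true_and, and_true, Prod.exists]
      rcases Nat.lt_or_ge S.card (D + 1) with h | h
      · exact ⟨S, none, by omega, rfl⟩
      · obtain ⟨e, he⟩ := Finset.card_pos.mp (show 0 < S.card by omega)
        refine ⟨S.erase e, some e, ?_, Finset.insert_erase he⟩
        rw [Finset.card_erase_of_mem he]; omega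
    refine (Finset.card_le_card hsub).trans (Finset.card_image_le.trans ?_)
    rw [Finset.card_product, pow_succ, Finset.card_univ, Fintype.card_option]
    refine Nat.mul_le_mul ih ?_
    have : Fintype.card (Sym2 (Fin n)) ≤ n ^ 2 := by
      rw [Sym2.card, Fintype.card_fin, Nat.choose_two_right, Nat.add_sub_cancel]
      apply Nat.div_le_of_le_mul
      rcases Nat.eq_zero_or_pos n with hn | hn
      · subst hn; simp
      · nlinarith
    omega

theorem card_ball (D : ℕ) (A : Finset (Sym2 (Fin n))) : (ball D A).card ≤ (n ^ 2 + 1) ^ D := by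
  refine le_trans ?_ (card_small n D)
  refine Finset.card_le_card_of_injOn (fun B => A ∆ B) ?_ ?_
  · intro B hB
    simpa [ball] using hB
  · intro B _ C _ h
    exact symmDiff_right_injective A h

/-- Distance bound for edge sets. -/
theorem card_symmDiff_triangle (A B C : Finset (Sym2 (Fin n))) :
    (A ∆ C).card ≤ (A ∆ B).card + (B ∆ C).card :=
  (Finset.card_le_card (symmDiff_triangle A B C)).trans (Finset.card_union_le _ _)

theorem card_realization_ball {d : Fin n → ℕ} (D : ℕ) (A : Finset (Sym2 (Fin n))) :
    ((Finset.univ : Finset (Realization d)).filter fun G => (A ∆ G.1).card ≤ D).card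
      ≤ (n ^ 2 + 1) ^ D := by
  refine le_trans ?_ (card_ball D A)
  refine Finset.card_le_card_of_injOn (fun G => G.1) ?_ ?_
  · intro G hG
    simpa [ball] using hG
  · intro G _ G' _ h
    exact Subtype.ext h

end Vale.Agent.P335
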