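import Vale.Agent.P335.Chain

/-! Realizations at bounded distance are compared through switches. -/

namespace Vale.Agent.P335

open Finset
open scoped symmDiff

variable {n : ℕ} {d : Fin n → ℕ}

theorem switch_symmDiff_card {E E' : Finset (Sym2 (Fin n))} (h : IsSwitch E E') :
    (E ∆ E').card ≤ 4 := by
  obtain ⟨a, b, c, e, -, -, rfl⟩ := h
  rw [symmDiff_symmDiff_cancel_left]
  exact Finset.card_le_four

theorem exists_improving (x y : Realization d) (hne : x ≠ y) :
    ∃ z : Realization d,
      (IsSwitch x.1 z.1 ∧ (z.1 ∆ y.1).card < (x.1 ∆ y.1).card) ∨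
      (IsSwitch y.1 z.1 ∧ (x.1 ∆ z.1).card < (x.1 ∆ y.1).card) := by
  classical
  obtain ⟨M, hM, hdM⟩ := x
  obtain ⟨M', hM', hdM'⟩ := y
  let N : Finset (Sym2 (Fin n)) → Fin n → Finset (Fin n) :=
    fun E v => Finset.univ.filter fun w => s(v, w) ∈ E
  have hcard : ∀ v, (N M v).card = (N M' v).card := fun v => by
    have h1 : (N M v).card = d v := hdM v
    have h2 : (N M' v).card = d v := hdM' v
    rw [h1, h2]
  have hex : ∃ v a, s(v, a) ∈ M' ∧ s(v, a) ∉ M := by
    by_contra hcon
    push Not at hcon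
    refine hne (Subtype.ext (Finset.ext fun e => ?_))
    induction e using Sym2.ind with
    | h v a =>
      have hsub : N M' v ⊆ N M v := fun w hw => by
        simp only [N, Finset.mem_filter, Finset.mem_univ, true_and] at hw ⊢
        exact hcon v w hw
      have := Finset.eq_of_subset_of_card_le hsub (hcard v).le
      have := congrArg (fun S => a ∈ S) this
      simpa [N, eq_comm] using this
  obtain ⟨v, a, hva', hva⟩ := hex
  have hb : ∃ b, s(v, b) ∈ M ∧ s(v, b) ∉ M' := by
    by_contra hcon
    push Not at hcon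
    have hsub : N M v ⊆ N M' v := fun w hw => by
      simp only [N, Finset.mem_filter, Finset.mem_univ, true_and] at hw ⊢
      exact hcon w hw
    have := Finset.eq_of_subset_of_card_le hsub (hcard v).ge
    have h2 : a ∈ N M' v := by simp [N, hva']
    rw [← this] at h2
    simp [N, hva] at h2
  obtain ⟨b, hvb, hvb'⟩ := hb
  have hva0 : v ≠ a := Loopless.ne hM' hva'
  have hvb0 : v ≠ b := Loopless.ne hM hvb
  have hab : a ≠ b := fun h => hvb' (h ▸ hva')
  let X : Finset (Fin n) := (((Finset.univ : Finset (Fin n)).erase v).erase a).erase b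
  let W : Finset (Sym2 (Fin n)) → Finset (Fin n) :=
    fun E => X.filter fun w => s(w, a) ∈ E ∧ s(w, b) ∉ E
  let B : Finset (Sym2 (Fin n)) → Finset (Fin n) :=
    fun E => X.filter fun w => s(w, b) ∈ E ∧ s(w, a) ∉ E
  have hdiff : ∀ E, Loopless E → (deg E a : ℤ) - deg E b
      = (W E).card - (B E).card + ((if s(v, a) ∈ E then 1 else 0)
        - (if s(v, b) ∈ E then 1 else 0)) := by
    intro E hE
    have e : ∀ u, (deg E u : ℤ) = ∑ w, if s(u, w) ∈ E then 1 else 0 := fun u => by simp [deg]
    rw [e a, e b, ← Finset.sum_sub_distrib]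
    rw [← Finset.add_sum_erase _ _ (Finset.mem_univ v),
      ← Finset.add_sum_erase _ _ (show a ∈ (Finset.univ : Finset (Fin n)).erase v by
        simp [hva0.symm]),
      ← Finset.add_sum_erase _ _
        (show b ∈ ((Finset.univ : Finset (Fin n)).erase v).erase a by
          simp [hvb0.symm, hab.symm])]
    have haa : s(a, a) ∉ E := fun h => hE.ne h rfl
    have hbb : s(b, b) ∉ E := fun h => hE.ne h rfl
    have hX : ∑ w ∈ X, ((if s(a, w) ∈ E then (1 : ℤ) else 0) - (if s(b, w) ∈ E then 1 else 0))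
        = (W E).card - (B E).card := by
      simp only [W, B, Finset.card_filter, Nat.cast_sum, ← Finset.sum_sub_distrib]
      refine Finset.sum_congr rfl fun w _ => ?_
      simp only [Sym2.eq_swap (a := a) (b := w), Sym2.eq_swap (a := b) (b := w)]
      split_ifs <;> simp_all
    change _ + (_ + (_ + ∑ w ∈ X, _)) = _
    rw [hX]
    simp only [Sym2.eq_swap (a := a) (b := v), Sym2.eq_swap (a := b) (b := v),
      Sym2.eq_swap (a := b) (b := a), haa, hbb, if_false]
    ring
  have hd := hdiff M hM
  have hd' := hdiff M' hM'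
  simp only [hdM, hdM', hva, hvb, hva', hvb', if_true, if_false] at hd hd'
  have hw : (∃ w ∈ W M, w ∉ W M') ∨ (∃ w ∈ B M', w ∉ B M) := by
    by_contra hcon
    push Not at hcon
    have h1 := Finset.card_le_card (show W M ⊆ W M' from fun w hw => hcon.1 w hw)
    have h2 := Finset.card_le_card (show B M' ⊆ B M from fun w hw => hcon.2 w hw)
    omega
  -- the generic step: flipping a switch of four edges, three of which disagree
  have step : ∀ (E E' : Finset (Sym2 (Fin n))) (q r w : Fin n), Loopless E →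
      (∀ u, deg E u = d u) → v ≠ q → v ≠ r → v ≠ w → q ≠ r → q ≠ w → r ≠ w →
      s(v, q) ∈ E → s(r, w) ∈ E → s(v, r) ∉ E → s(q, w) ∉ E →
      s(v, q) ∉ E' → s(v, r) ∈ E' → (s(r, w) ∉ E' ∨ s(q, w) ∈ E') →
      ∃ z : Realization d, IsSwitch E z.1 ∧ (z.1 ∆ E').card < (E ∆ E').card := by
    intro E E' q r w hE hdE h1 h2 h3 h4 h5 h6 m1 m2 m3 m4 n1 n2 n3
    set F : Finset (Sym2 (Fin n)) := {s(v, q), s(r, w), s(v, r), s(q, w)} with hF
    have hp := pair_mem_matchingPairs h1 h2 h3 h4 h5 h6
    have hswitch : IsSwitch E (E ∆ F) :=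
      ⟨v, q, r, w, ⟨h1, h2, h3, h4, h5, h6⟩, ⟨m1, m2, m3, m4⟩, rfl⟩
    have happ : applyMove E (({s(v, q), s(r, w)} : Finset (Sym2 (Fin n))),
        ({s(v, r), s(q, w)} : Finset (Sym2 (Fin n)))) = E ∆ F := by
      rw [applyMove, if_pos (show ({s(v, q), s(r, w)} : Finset (Sym2 (Fin n))) ⊆ E ∧
        Disjoint ({s(v, r), s(q, w)} : Finset (Sym2 (Fin n))) E by
          refine ⟨by simp [Finset.insert_subset_iff, m1, m2], by simp [m3, m4]⟩)]
      ext f
      simp only [hF, Finset.mem_union, Finset.mem_sdiff, Finset.mem_symmDiff, Finset.mem_insert,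
        Finset.mem_singleton]
      constructor
      · rintro (⟨hf, hn'⟩ | (rfl | rfl))
        · refine Or.inl ⟨hf, ?_⟩
          rintro (rfl | rfl | rfl | rfl) <;> simp_all
        · exact Or.inr ⟨by simp, m3⟩
        · exact Or.inr ⟨by simp, m4⟩
      · rintro (⟨hf, hn'⟩ | ⟨(rfl | rfl | rfl | rfl), hf⟩)
        · exact Or.inl ⟨hf, fun h => hn' (h.elim Or.inl (fun h => Or.inr (Or.inl h)))⟩
        · exact absurd m1 hf
        · exact absurd m2 hf
        · exact Or.inr (Or.inl rfl)
        · exact Or.inr (Or.inr rfl)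
    have hmem := applyMove_mem (⟨E, hE, hdE⟩ : Realization d) hp
    simp only [happ] at hmem
    refine ⟨⟨E ∆ F, hmem⟩, hswitch, ?_⟩
    have e : (E ∆ F) ∆ E' = (E ∆ E') ∆ F := by
      rw [symmDiff_assoc, symmDiff_comm F E', ← symmDiff_assoc]
    change ((E ∆ F) ∆ E').card < _
    rw [e]
    set U := E ∆ E' with hU
    have hid : (U ∆ F).card + 2 * (U ∩ F).card = U.card + F.card := by
      have h1' : U ∆ F = (U ∪ F) \ (U ∩ F) := by
        simpa [Finset.sup_eq_union, Finset.inf_eq_inter] using symmDiff_eq_sup_sdiff_inf U F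
      have hsub : U ∩ F ⊆ U ∪ F := Finset.inter_subset_union
      have := Finset.card_sdiff_add_card_eq_card hsub
      have h2' := Finset.card_union_add_card_inter U F
      rw [h1']
      omega
    have h4' : F.card ≤ 4 := Finset.card_le_four
    have h3' : 3 ≤ (U ∩ F).card := by
      obtain ⟨g, hg⟩ : ∃ g, g ∈ U ∩ F ∧ g ≠ s(v, q) ∧ g ≠ s(v, r) := by
        rcases n3 with n3 | n3
        · exact ⟨s(r, w), by simp [hU, hF, Finset.mem_symmDiff, m2, n3],
            by simp [h1, h3.symm, h2.symm, h4.symm], by simp [h2.symm, h3.symm]⟩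
        · exact ⟨s(q, w), by simp [hU, hF, Finset.mem_symmDiff, m4, n3],
            by simp [h1.symm, h3.symm], by simp [h1.symm, h3.symm, h4, h2]⟩
      have hne' : s(v, q) ≠ s(v, r) := fun h => m3 (h ▸ m1)
      have hsub : ({s(v, q), s(v, r), g} : Finset (Sym2 (Fin n))) ⊆ U ∩ F := by
        intro f hf
        simp only [Finset.mem_insert, Finset.mem_singleton] at hf
        rcases hf with rfl | rfl | rfl
        · simp [hU, hF, Finset.mem_symmDiff, m1, n1]
        · simp [hU, hF, Finset.mem_symmDiff, m3, n2]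
        · exact hg.1
      refine le_trans (le_of_eq ?_) (Finset.card_le_card hsub)
      simp [hne', hg.2.1.symm, hg.2.2.symm]
    omega
  rcases hw with ⟨w, hwW, hwW'⟩ | ⟨w, hwB, hwB'⟩
  · simp only [W, X, Finset.mem_filter, Finset.mem_erase, Finset.mem_univ, and_true] at hwW hwW'
    obtain ⟨⟨hwb, hwa, hwv⟩, m2, m4⟩ := hwW
    obtain ⟨z, hz⟩ := step M M' b a w hM hdM hvb0 hva0 hwv.symm hab.symm hwb.symm hwa.symm hvb
      (by rwa [Sym2.eq_swap]) hva (by rwa [Sym2.eq_swap]) hvb' hva' (by
        by_contra hcon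
        push Not at hcon
        refine hwW' ⟨⟨hwb, hwa, hwv⟩, by rw [Sym2.eq_swap]; exact hcon.1,
          by rw [Sym2.eq_swap]; exact hcon.2⟩)
    exact ⟨z, Or.inl hz⟩
  · simp only [B, X, Finset.mem_filter, Finset.mem_erase, Finset.mem_univ, and_true] at hwB hwB'
    obtain ⟨⟨hwb, hwa, hwv⟩, m2, m4⟩ := hwB
    obtain ⟨z, hz⟩ := step M' M a b w hM' hdM' hva0 hvb0 hwv.symm hab hwa.symm hwb.symm hva'
      (by rwa [Sym2.eq_swap]) hvb' (by rwa [Sym2.eq_swap]) hva hvb (by
        by_contra hcon
        push Not at hcon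
        refine hwB' ⟨⟨hwb, hwa, hwv⟩, by rw [Sym2.eq_swap]; exact hcon.1,
          by rw [Sym2.eq_swap]; exact hcon.2⟩)
    exact ⟨z, Or.inr ⟨hz.1, by rw [symmDiff_comm M z.1, symmDiff_comm M M']; exact hz.2⟩⟩

/-- Dirichlet sum over pairs at distance at most `D`. -/
noncomputable def nearSum (D : ℕ) (f : Realization d → ℝ) : ℝ :=
  ∑ x, ∑ y, if (x.1 ∆ y.1).card ≤ D then (f x - f y) ^ 2 else 0

/-- Dirichlet sum over switches. -/
noncomputable def switchSum (f : Realization d → ℝ) : ℝ :=
  open Classical in ∑ x, ∑ y, if IsSwitch x.1 y.1 then (f x - f y) ^ 2 else 0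

theorem switchSum_nonneg (f : Realization d → ℝ) : 0 ≤ switchSum f :=
  Finset.sum_nonneg fun _ _ => Finset.sum_nonneg fun _ _ => by split <;> positivity

theorem nearSum_succ (D : ℕ) (f : Realization d → ℝ) :
    nearSum (D + 1) f ≤ 4 * ((n : ℝ) ^ 2 + 1) ^ D * switchSum f
      + 4 * ((n : ℝ) ^ 2 + 1) ^ 4 * nearSum D f := by
  classical
  let q : Realization d → Realization d → ℝ := fun x y => (f x - f y) ^ 2
  let term : Realization d → Realization d → Realization d → ℝ := fun x z y =>
    if IsSwitch x.1 z.1 ∧ (z.1 ∆ y.1).card ≤ D then q x z + q z y else 0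
  have hterm : ∀ x z y, 0 ≤ term x z y := fun x z y => by
    simp only [term, q]; split <;> positivity
  have hpoint : ∀ x y : Realization d,
      (if (x.1 ∆ y.1).card ≤ D + 1 then q x y else 0)
        ≤ 2 * (∑ z, term x z y) + 2 * (∑ z, term y z x) := by
    intro x y
    have h0 : ∀ a b, 0 ≤ ∑ z, term a z b := fun a b => Finset.sum_nonneg fun z _ => hterm a z b
    split_ifs with hD
    · rcases eq_or_ne x y with rfl | hne
      · have := h0 x x
        simp only [q, sub_self]; linarith
      · obtain ⟨z, hz | hz⟩ := exists_improving x y hne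
        · have h1 : term x z y ≤ ∑ z, term x z y :=
            Finset.single_le_sum (fun z _ => hterm x z y) (Finset.mem_univ z)
          have h2 : term x z y = q x z + q z y := if_pos ⟨hz.1, by omega⟩
          have h3 : q x y ≤ 2 * (q x z + q z y) := by
            simp only [q]; nlinarith [sq_nonneg ((f x - f z) - (f z - f y))]
          linarith [h0 y x]
        · have h1 : term y z x ≤ ∑ z, term y z x :=
            Finset.single_le_sum (fun z _ => hterm y z x) (Finset.mem_univ z)
          have h2 : term y z x = q y z + q z x :=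
            if_pos ⟨hz.1, by rw [symmDiff_comm]; omega⟩
          have h3 : q x y ≤ 2 * (q y z + q z x) := by
            simp only [q]; nlinarith [sq_nonneg ((f x - f z) - (f z - f y))]
          linarith [h0 x y]
    · linarith [h0 x y, h0 y x]
  let T := ∑ x, ∑ z, ∑ y, term x z y
  have hle : nearSum (D + 1) f ≤ 4 * T := by
    calc nearSum (D + 1) f ≤ ∑ x, ∑ y, (2 * (∑ z, term x z y) + 2 * (∑ z, term y z x)) :=
          Finset.sum_le_sum fun x _ => Finset.sum_le_sum fun y _ => hpoint x y
      _ = 4 * T := by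
          simp only [Finset.sum_add_distrib, ← Finset.mul_sum, T]
          rw [Finset.sum_comm (f := fun x y => ∑ z, term y z x)]
          rw [Finset.sum_congr rfl fun x _ => Finset.sum_comm (f := fun y z => term x z y)]
          ring
  have hb1 : ∀ z : Realization d,
      (((Finset.univ : Finset (Realization d)).filter fun y => (z.1 ∆ y.1).card ≤ D).card : ℝ)
        ≤ ((n : ℝ) ^ 2 + 1) ^ D := fun z => by exact_mod_cast card_realization_ball D z.1
  have hb2 : ∀ z : Realization d,
      (((Finset.univ : Finset (Realization d)).filter fun x => IsSwitch x.1 z.1).card : ℝ)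
        ≤ ((n : ℝ) ^ 2 + 1) ^ 4 := fun z => by
    have h := (Finset.card_le_card (show
      ((Finset.univ : Finset (Realization d)).filter fun x => IsSwitch x.1 z.1) ⊆
      (Finset.univ : Finset (Realization d)).filter fun x => (z.1 ∆ x.1).card ≤ 4 from fun x hx => by
        simp only [Finset.mem_filter, Finset.mem_univ, true_and] at hx ⊢
        rw [symmDiff_comm]; exact switch_symmDiff_card hx)).trans (card_realization_ball 4 z.1)
    exact_mod_cast h
  have hT : T ≤ ((n : ℝ) ^ 2 + 1) ^ D * switchSum f + ((n : ℝ) ^ 2 + 1) ^ 4 * nearSum D f := by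
    have hsplit : ∀ x z y, term x z y
        = (if (z.1 ∆ y.1).card ≤ D then (if IsSwitch x.1 z.1 then q x z else 0) else 0)
          + (if IsSwitch x.1 z.1 then (if (z.1 ∆ y.1).card ≤ D then q z y else 0) else 0) := by
      intro x z y
      simp only [term]
      by_cases h1 : IsSwitch x.1 z.1 <;> by_cases h2 : (z.1 ∆ y.1).card ≤ D
      · rw [if_pos ⟨h1, h2⟩, if_pos h2, if_pos h1, if_pos h1, if_pos h2]
      · rw [if_neg (fun h => h2 h.2), if_neg h2, if_pos h1, if_neg h2, add_zero]
      · rw [if_neg (fun h => h1 h.1), if_pos h2, if_neg h1, if_neg h1, add_zero]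
      · rw [if_neg (fun h => h1 h.1), if_neg h2, if_neg h1, add_zero]
    simp only [T, hsplit, Finset.sum_add_distrib]
    refine add_le_add ?_ ?_
    · rw [switchSum, Finset.mul_sum]
      refine Finset.sum_le_sum fun x _ => ?_
      rw [Finset.mul_sum]
      refine Finset.sum_le_sum fun z _ => ?_
      rw [← Finset.sum_filter, Finset.sum_const, nsmul_eq_mul]
      exact mul_le_mul_of_nonneg_right (hb1 z) (by split <;> positivity)
    · rw [Finset.sum_comm, nearSum, Finset.mul_sum]
      refine Finset.sum_le_sum fun z _ => ?_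
      rw [Finset.sum_comm, Finset.mul_sum]
      refine Finset.sum_le_sum fun y _ => ?_
      rw [← Finset.sum_filter, Finset.sum_const, nsmul_eq_mul]
      exact mul_le_mul_of_nonneg_right (hb2 z) (by split <;> positivity)
  linarith

theorem nearSum_le (D : ℕ) (f : Realization d → ℝ) :
    nearSum D f ≤ 8 ^ D * ((n : ℝ) ^ 2 + 1) ^ (5 * D) * switchSum f := by
  induction D with
  | zero =>
    have : nearSum 0 f = 0 := by
      refine Finset.sum_eq_zero fun x _ => Finset.sum_eq_zero fun y _ => ?_
      split_ifs with h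
      · have : x = y := by
          apply Subtype.ext
          simpa [symmDiff_eq_bot, Finset.bot_eq_empty] using h
        simp [this]
      · rfl
    rw [this]
    simpa using switchSum_nonneg f
  | succ D ih =>
    set b := (n : ℝ) ^ 2 + 1 with hb
    have hb1 : (1 : ℝ) ≤ b := by rw [hb]; nlinarith [sq_nonneg (n : ℝ)]
    have h0 := switchSum_nonneg f
    refine (nearSum_succ D f).trans ?_
    have hA : 4 * b ^ D ≤ 4 * (8 : ℝ) ^ D * b ^ (5 * (D + 1)) := by
      have h1 : b ^ D ≤ b ^ (5 * (D + 1)) := pow_le_pow_right₀ hb1 (by omega)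
      have h2 : (1 : ℝ) ≤ 8 ^ D := one_le_pow₀ (by norm_num)
      have h3 : (0 : ℝ) ≤ b ^ (5 * (D + 1)) := by positivity
      nlinarith
    have hB : 4 * b ^ 4 * (8 ^ D * b ^ (5 * D)) ≤ 4 * (8 : ℝ) ^ D * b ^ (5 * (D + 1)) := by
      have h1 : b ^ (4 + 5 * D) ≤ b ^ (5 * (D + 1)) := pow_le_pow_right₀ hb1 (by omega)
      calc 4 * b ^ 4 * (8 ^ D * b ^ (5 * D)) = 4 * 8 ^ D * b ^ (4 + 5 * D) := by
            rw [pow_add]; ring
        _ ≤ _ := mul_le_mul_of_nonneg_left h1 (by positivity)
    have hB' : 4 * b ^ 4 * nearSum D f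
        ≤ 4 * (8 : ℝ) ^ D * b ^ (5 * (D + 1)) * switchSum f :=
      (mul_le_mul_of_nonneg_left ih (by positivity)).trans (by
        rw [← mul_assoc]; exact mul_le_mul_of_nonneg_right hB h0)
    have hA' := mul_le_mul_of_nonneg_right hA h0
    rw [pow_succ (8 : ℝ)]
    linarith

theorem switchSum_le (f : Realization d → ℝ) :
    switchSum f ≤ (n : ℝ) ^ 4 * 2 ^ 20 *
      ∑ x, ∑ y, moveMatrix d x y * (f x - f y) ^ 2 := by
  classical
  rw [Finset.mul_sum]
  refine Finset.sum_le_sum fun x _ => ?_
  rw [Finset.mul_sum]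
  refine Finset.sum_le_sum fun y _ => ?_
  split_ifs with h
  · have hn : (0 : ℝ) < n := by
      obtain ⟨a, -⟩ := h
      have := a.pos
      exact_mod_cast this
    have := switch_lower h
    rw [div_le_iff₀ (by positivity)] at this
    nlinarith [sq_nonneg (f x - f y)]
  · exact mul_nonneg (mul_nonneg (by positivity) (by positivity))
      (mul_nonneg (moveMatrix_nonneg x y) (sq_nonneg _))

end Vale.Agent.P335
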