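import Vale.Agent.P335.Paths
import Vale.Agent.P335.Local
import Mathlib.Combinatorics.SimpleGraph.Paths
import Mathlib.Combinatorics.SimpleGraph.Connectivity.Connected

/-! Congestion bound and mixing time. -/

namespace Vale.Agent.P335

open Finset
open scoped symmDiff

variable {n : ℕ} {d : Fin n → ℕ}

theorem walk_diff_le {V : Type*} {G : SimpleGraph V} (f : V → ℝ) {a b : V} (w : G.Walk a b) :
    |f a - f b| ≤ (w.darts.map fun e => |f e.fst - f e.snd|).sum := by
  induction w with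
  | nil => simp
  | @cons u v w' h p ih =>
    simp only [SimpleGraph.Walk.darts_cons, List.map_cons, List.sum_cons]
    have := abs_sub_le (f u) (f v) (f w')
    linarith

theorem reach_sq_le {V : Type*} [Fintype V] [DecidableEq V] {r : V → V → Prop} {a b : V}
    (h : Relation.ReflTransGen r a b) (S : Finset (V × V)) (hS : ∀ u v, r u v → (u, v) ∈ S)
    (hsym : ∀ u v, (u, v) ∈ S → (v, u) ∈ S) (f : V → ℝ) :
    (f a - f b) ^ 2 ≤ S.card * ∑ e ∈ S, (f e.1 - f e.2) ^ 2 := by
  classical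
  let G : SimpleGraph V := SimpleGraph.fromRel r
  have hreach : G.Reachable a b := by
    induction h with
    | refl => exact SimpleGraph.Reachable.refl _
    | @tail u v _ huv ih =>
      rcases eq_or_ne u v with rfl | hne
      · exact ih
      · exact ih.trans (SimpleGraph.Adj.reachable ⟨hne, Or.inl huv⟩)
  obtain ⟨w, hw⟩ := hreach.exists_isPath
  let L := w.darts.map fun e => (e.fst, e.snd)
  have hnd : L.Nodup := by
    refine List.Nodup.map ?_ (SimpleGraph.Walk.darts_nodup_of_support_nodup hw.support_nodup)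
    intro e e' he
    exact SimpleGraph.Dart.ext _ _ he
  have hsub : L.toFinset ⊆ S := by
    intro e he
    simp only [L, List.mem_toFinset, List.mem_map] at he
    obtain ⟨dd, -, rfl⟩ := he
    obtain ⟨-, h | h⟩ := dd.adj
    · exact hS _ _ h
    · exact hsym _ _ (hS _ _ h)
  have h1 : |f a - f b| ≤ ∑ e ∈ S, |f e.1 - f e.2| := by
    refine le_trans ?_ (Finset.sum_le_sum_of_subset_of_nonneg hsub fun e _ _ => abs_nonneg _)
    rw [List.sum_toFinset _ hnd, List.map_map]
    exact walk_diff_le f w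
  calc (f a - f b) ^ 2 = |f a - f b| ^ 2 := (sq_abs _).symm
    _ ≤ (∑ e ∈ S, |f e.1 - f e.2|) ^ 2 := pow_le_pow_left₀ (abs_nonneg _) h1 2
    _ ≤ _ := by simpa [sq_abs] using
        sq_sum_le_card_mul_sum_sq (s := S) (f := fun e : V × V => |f e.1 - f e.2|)

open Classical in
/-- All stages of one path. -/
noncomputable def stages (x y : Realization d) (P : Sys n) : Finset (Realization d) :=
  Finset.univ.filter fun Z => Stage x y P Z

theorem card_stages (x y : Realization d) (P : Sys n) :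
    (stages x y P).card ≤ (n ^ 2 + 1) ^ 6 := by
  classical
  let f : Fin (n ^ 2 + 1) × Dart n × Fin (n ^ 2 + 1) → Finset (Realization d) := fun i =>
    Finset.univ.filter fun Z =>
      ((x.1 ∆ flipped (x.1 ∆ y.1) P i.1 i.2.1 i.2.2) ∆ Z.1).card ≤ 3
  have hsub : stages x y P ⊆ Finset.univ.biUnion f := by
    intro Z hZ
    simp only [stages, Finset.mem_filter, Finset.mem_univ, true_and] at hZ
    obtain ⟨m, g, l, -, h, -⟩ := hZ
    exact Finset.mem_biUnion.mpr ⟨(m, g, l), Finset.mem_univ _, by simp [f, h]⟩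
  refine (Finset.card_le_card hsub).trans ((Finset.card_biUnion_le_card_mul _ _
    ((n ^ 2 + 1) ^ 3) fun i _ => card_realization_ball 3 _).trans ?_)
  simp only [Finset.card_univ, Fintype.card_prod, Fintype.card_fin]
  calc (n ^ 2 + 1) * (n * n * (n ^ 2 + 1)) * (n ^ 2 + 1) ^ 3
      ≤ (n ^ 2 + 1) * ((n ^ 2 + 1) * (n ^ 2 + 1)) * (n ^ 2 + 1) ^ 3 := by
        gcongr; nlinarith
    _ = _ := by ring

/-- The codes of the paths through one state. -/
abbrev Key (d : Fin n → ℕ) :=
  Realization d × Finset (Sym2 (Fin n)) × Finset (Sym2 (Fin n)) ×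
    (Fin (n ^ 2 + 1) × Dart n × Fin (n ^ 2 + 1)) × Junction n × Junction n

open Classical in
/-- Admissible codes. -/
noncomputable def keys (d : Fin n → ℕ) : Finset (Key d) :=
  (Finset.univ : Finset (Realization d)) ×ˢ (Finset.univ.filter fun S => S.card ≤ 3) ×ˢ
    (Finset.univ.filter fun S => S.card ≤ 5) ×ˢ Finset.univ ×ˢ Finset.univ ×ˢ Finset.univ

theorem card_keys (d : Fin n → ℕ) :
    (keys d).card ≤ Fintype.card (Realization d) * (n ^ 2 + 1) ^ 17 := by
  classical
  simp only [keys, Finset.card_product, Finset.card_univ, Fintype.card_prod, Fintype.card_fin]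
  have h3 := card_small n 3
  have h5 := card_small n 5
  have h1 : n ≤ n ^ 2 + 1 := by nlinarith
  have h2 : n * n ≤ n ^ 2 + 1 := by nlinarith
  calc _ ≤ Fintype.card (Realization d) * ((n ^ 2 + 1) ^ 3 * ((n ^ 2 + 1) ^ 5 *
        ((n ^ 2 + 1) * ((n ^ 2 + 1) * (n ^ 2 + 1)) *
          (((n ^ 2 + 1) * ((n ^ 2 + 1) * (n ^ 2 + 1))) *
            ((n ^ 2 + 1) * ((n ^ 2 + 1) * (n ^ 2 + 1))))))) := by gcongr
    _ = _ := by ring

open Classical in
theorem congestion (Z : Realization d) :
    ∑ x : Realization d, ∑ y : Realization d,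
      ∑ P ∈ (pairings x.1 y.1).filter (fun P => Stage x y P Z),
        (1 : ℝ) / (weightOf (x.1 ∆ y.1)) ≤ (keys d).card := by
  let src := (Finset.univ : Finset (Realization d × Realization d)).sigma
    fun q => (pairings q.1.1 q.2.1).filter (fun P => Stage q.1 q.2 P Z)
  have hsrc : ∑ x : Realization d, ∑ y : Realization d,
      ∑ P ∈ (pairings x.1 y.1).filter (fun P => Stage x y P Z),
        (1 : ℝ) / (weightOf (x.1 ∆ y.1))
      = ∑ s ∈ src, (1 : ℝ) / (weightOf (s.1.1.1 ∆ s.1.2.1)) := by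
    rw [Finset.sum_sigma, ← Finset.univ_product_univ, Finset.sum_product]
  rw [hsrc]
  let col : Key d → Finset (Sym2 (Fin n)) := fun k => Z.1 ∆ k.2.1
  let hat : Key d → Finset (Sym2 (Fin n)) := fun k => k.1.1 ∆ k.2.2.1
  let tgt := (keys d).sigma
    fun k => compatible (col k ∆ hat k) (col k) k.2.2.2.2.1 k.2.2.2.2.2
  have hex : ∀ s ∈ src, ∃ k ∈ keys d,
      s.2 ∈ compatible (col k ∆ hat k) (col k) k.2.2.2.2.1 k.2.2.2.2.2 ∧
      col k ∆ hat k = s.1.1.1 ∆ s.1.2.1 ∧
      s.1.1.1 = col k ∆ flipped (col k ∆ hat k) s.2 k.2.2.2.1.1 k.2.2.2.1.2.1 k.2.2.2.1.2.2 ∧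
      s.1.2.1 = hat k ∆ flipped (col k ∆ hat k) s.2 k.2.2.2.1.1 k.2.2.2.1.2.1 k.2.2.2.1.2.2 := by
    rintro ⟨⟨x, y⟩, P⟩ hs
    simp only [src, Finset.mem_sigma, Finset.mem_univ, true_and, Finset.mem_filter] at hs
    obtain ⟨hP, m, g, l, hg, hZ, W, hW⟩ := hs
    have A := alternating_of_mem hP
    set F := flipped (x.1 ∆ y.1) P m g l with hF
    let k : Key d := (W, (x.1 ∆ F) ∆ Z.1, (y.1 ∆ F) ∆ W.1, (m, g, l),
      junctionAfter P ((step P).symm g),
      junctionAfter P ((step P).symm ((step P)^[(l : ℕ)] g)))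
    have e1 : col k = x.1 ∆ F := by
      simp only [col, k]; rw [symmDiff_comm (x.1 ∆ F) Z.1, symmDiff_symmDiff_cancel_left]
    have e2 : hat k = y.1 ∆ F := by
      simp only [hat, k]; rw [symmDiff_comm (y.1 ∆ F) W.1, symmDiff_symmDiff_cancel_left]
    have e3 : col k ∆ hat k = x.1 ∆ y.1 := by
      rw [e1, e2, symmDiff_symmDiff_symmDiff_comm, symmDiff_self, symmDiff_bot]
    refine ⟨k, ?_, ?_, e3, ?_, ?_⟩
    · simp [keys, k, hZ, hW]
    · rw [e3, e1]
      exact A.fits_flipped m hg l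
    · rw [e3, e1]; exact (symmDiff_symmDiff_cancel_right F x.1).symm
    · rw [e3, e2]; exact (symmDiff_symmDiff_cancel_right F y.1).symm
  rcases src.eq_empty_or_nonempty with he | ⟨s₀, hs₀⟩
  · rw [he, Finset.sum_empty]
    positivity
  haveI : Nonempty (Key d) := ⟨(hex s₀ hs₀).choose⟩
  choose! code hkey hcomp hU hx hy using hex
  have hinj : Set.InjOn (fun s => (⟨code s, s.2⟩ : Σ _ : Key d, Sys n)) src := by
    rintro ⟨⟨x, y⟩, P⟩ hs ⟨⟨x', y'⟩, P'⟩ hs' h
    simp only [Sigma.mk.injEq, heq_eq_eq] at h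
    obtain ⟨h, rfl⟩ := h
    have a1 := hx _ hs
    have a2 := hy _ hs
    rw [h] at a1 a2
    rw [← hx _ hs'] at a1
    rw [← hy _ hs'] at a2
    obtain rfl : x = x' := Subtype.ext a1
    obtain rfl : y = y' := Subtype.ext a2
    rfl
  calc ∑ s ∈ src, (1 : ℝ) / (weightOf (s.1.1.1 ∆ s.1.2.1))
      = ∑ t ∈ src.image (fun s => (⟨code s, s.2⟩ : Σ _ : Key d, Sys n)),
          (1 : ℝ) / (weightOf (col t.1 ∆ hat t.1)) := by
        rw [Finset.sum_image hinj]
        exact Finset.sum_congr rfl fun s hs => by rw [hU s hs]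
    _ ≤ ∑ t ∈ tgt, (1 : ℝ) / (weightOf (col t.1 ∆ hat t.1)) := by
        refine Finset.sum_le_sum_of_subset_of_nonneg ?_ fun t _ _ => by positivity
        intro t ht
        obtain ⟨s, hs, rfl⟩ := Finset.mem_image.mp ht
        exact Finset.mem_sigma.mpr ⟨hkey s hs, hcomp s hs⟩
    _ ≤ ∑ _k ∈ keys d, (1 : ℝ) := by
        rw [Finset.sum_sigma]
        refine Finset.sum_le_sum fun k _ => ?_
        dsimp only
        rw [Finset.sum_const, nsmul_eq_mul, mul_one_div,
          div_le_one (by exact_mod_cast weightOf_pos _)]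
        exact_mod_cast card_compatible _ _ _ _
    _ = _ := by simp

open Classical in
theorem all_pairs_le (f : Realization d → ℝ) :
    ∑ x, ∑ y, (f x - f y) ^ 2
      ≤ ((n : ℝ) ^ 2 + 1) ^ 29 * Fintype.card (Realization d) * nearSum 8 f := by
  set b := (n : ℝ) ^ 2 + 1 with hb
  let q : Realization d → Realization d → ℝ := fun a c =>
    if (a.1 ∆ c.1).card ≤ 8 then (f a - f c) ^ 2 else 0
  have hq : ∀ a c, 0 ≤ q a c := fun a c => by simp only [q]; split <;> positivity
  have hone : ∀ (x y : Realization d) (P : Sys n), P ∈ pairings x.1 y.1 →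
      (f x - f y) ^ 2 ≤ b ^ 12 * ∑ a, ∑ c, if Stage x y P a then q a c else 0 := by
    intro x y P hP
    let S := ((stages x y P) ×ˢ (stages x y P)).filter fun e => (e.1.1 ∆ e.2.1).card ≤ 8
    have h1 := reach_sq_le (all_path (alternating_of_mem hP)) S
      (fun u v huv => by
        simp only [S, stages, Finset.mem_filter, Finset.mem_product, Finset.mem_univ, true_and]
        exact ⟨⟨huv.1, huv.2.1⟩, huv.2.2⟩)
      (fun u v h => by
        simp only [S, Finset.mem_filter, Finset.mem_product] at h ⊢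
        exact ⟨⟨h.1.2, h.1.1⟩, by rw [symmDiff_comm]; exact h.2⟩) f
    have hS : (S.card : ℝ) ≤ b ^ 12 := by
      have h := card_stages x y P
      have : S.card ≤ (n ^ 2 + 1) ^ 12 := by
        refine (Finset.card_filter_le _ _).trans ?_
        rw [Finset.card_product]
        calc _ ≤ (n ^ 2 + 1) ^ 6 * (n ^ 2 + 1) ^ 6 := Nat.mul_le_mul h h
          _ = _ := by rw [← pow_add]
      rw [hb]
      exact_mod_cast this
    refine h1.trans (mul_le_mul hS ?_ (Finset.sum_nonneg fun e _ => sq_nonneg _) (by positivity))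
    rw [Finset.sum_filter, Finset.sum_product]
    simp only [stages, Finset.sum_filter]
    refine Finset.sum_le_sum fun a _ => ?_
    split_ifs with ha
    · exact Finset.sum_le_sum fun c _ => by simp only [q]; split_ifs <;> first | exact le_rfl | positivity
    · simp
  have hwt : ∀ x y : Realization d, (1 : ℝ)
      ≤ ((pairings x.1 y.1).card : ℝ) / weightOf (x.1 ∆ y.1) := by
    intro x y
    rw [le_div_iff₀ (by exact_mod_cast weightOf_pos _), one_mul]
    exact_mod_cast pairings_lower fun v => (x.2.2 v).trans (y.2.2 v).symm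
  calc ∑ x, ∑ y, (f x - f y) ^ 2
      ≤ ∑ x : Realization d, ∑ y : Realization d, ∑ P ∈ pairings x.1 y.1,
          (1 / (weightOf (x.1 ∆ y.1) : ℝ)) * (f x - f y) ^ 2 := by
        refine Finset.sum_le_sum fun x _ => Finset.sum_le_sum fun y _ => ?_
        rw [Finset.sum_const, nsmul_eq_mul, ← mul_assoc, mul_one_div]
        exact le_mul_of_one_le_left (sq_nonneg _) (hwt x y)
    _ ≤ ∑ x : Realization d, ∑ y : Realization d, ∑ P ∈ pairings x.1 y.1,
          (1 / (weightOf (x.1 ∆ y.1) : ℝ)) *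
            (b ^ 12 * ∑ a, ∑ c, if Stage x y P a then q a c else 0) :=
        Finset.sum_le_sum fun x _ => Finset.sum_le_sum fun y _ => Finset.sum_le_sum fun P hP =>
          mul_le_mul_of_nonneg_left (hone x y P hP) (by positivity)
    _ = b ^ 12 * ∑ a, (∑ c, q a c) * (∑ x : Realization d, ∑ y : Realization d,
          ∑ P ∈ (pairings x.1 y.1).filter (fun P => Stage x y P a),
            (1 : ℝ) / (weightOf (x.1 ∆ y.1))) := by
        have e : ∀ (x y : Realization d) (P : Sys n) (a : Realization d),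
            (∑ c, if Stage x y P a then q a c else 0) = if Stage x y P a then ∑ c, q a c else 0 :=
          fun x y P a => by by_cases h : Stage x y P a <;> simp [h]
        simp only [e, Finset.mul_sum, Finset.sum_filter]
        conv_lhs => rw [Finset.sum_congr rfl fun x _ =>
          Finset.sum_congr rfl fun y _ => Finset.sum_comm]
        conv_lhs => rw [Finset.sum_congr rfl fun x _ => Finset.sum_comm]
        rw [Finset.sum_comm]
        refine Finset.sum_congr rfl fun a _ => Finset.sum_congr rfl fun x _ =>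
          Finset.sum_congr rfl fun y _ => Finset.sum_congr rfl fun P _ => ?_
        split <;> ring
    _ ≤ b ^ 12 * ∑ a, (∑ c, q a c) * ((Fintype.card (Realization d) : ℝ) * b ^ 17) := by
        refine mul_le_mul_of_nonneg_left (Finset.sum_le_sum fun a _ => ?_) (by positivity)
        refine mul_le_mul_of_nonneg_left ((congestion a).trans ?_)
          (Finset.sum_nonneg fun c _ => hq a c)
        rw [hb]
        exact_mod_cast card_keys d
    _ = b ^ 29 * Fintype.card (Realization d) * nearSum 8 f := by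
        rw [← Finset.sum_mul]
        simp only [nearSum, q]
        ring

theorem poincare (f : Realization d → ℝ) :
    ∑ x, ∑ y, (f x - f y) ^ 2
      ≤ (8 ^ 8 * 2 ^ 20 * ((n : ℝ) ^ 2 + 1) ^ 73) * Fintype.card (Realization d) *
        ∑ x, ∑ y, moveMatrix d x y * (f x - f y) ^ 2 := by
  classical
  set b := (n : ℝ) ^ 2 + 1 with hb
  have h1 := all_pairs_le f
  have h2 := nearSum_le 8 f
  have h3 := switchSum_le f
  set D := ∑ x, ∑ y, moveMatrix d x y * (f x - f y) ^ 2
  have hD : 0 ≤ D := Finset.sum_nonneg fun x _ => Finset.sum_nonneg fun y _ =>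
    mul_nonneg (moveMatrix_nonneg x y) (sq_nonneg _)
  have h4 : (n : ℝ) ^ 4 ≤ b ^ 4 :=
    pow_le_pow_left₀ (Nat.cast_nonneg n) (by rw [hb]; nlinarith) 4
  calc _ ≤ b ^ 29 * Fintype.card (Realization d) * nearSum 8 f := h1
    _ ≤ b ^ 29 * Fintype.card (Realization d) * (8 ^ 8 * b ^ (5 * 8) * ((n : ℝ) ^ 4 * 2 ^ 20 * D)) :=
        mul_le_mul_of_nonneg_left (h2.trans (mul_le_mul_of_nonneg_left h3 (by positivity)))
          (by positivity)
    _ ≤ b ^ 29 * Fintype.card (Realization d) * (8 ^ 8 * b ^ (5 * 8) * (b ^ 4 * 2 ^ 20 * D)) := by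
        gcongr
    _ = _ := by ring

theorem card_realization_le (d : Fin n → ℕ) :
    (Fintype.card (Realization d) : ℝ) ≤ Real.exp ((n : ℝ) ^ 2) := by
  have h1 : Fintype.card (Realization d) ≤ 2 ^ (n ^ 2) := by
    refine (Fintype.card_subtype_le _).trans ?_
    rw [Fintype.card_finset]
    refine Nat.pow_le_pow_right (by norm_num) ?_
    rw [Sym2.card, Fintype.card_fin, Nat.choose_two_right, Nat.add_sub_cancel]
    apply Nat.div_le_of_le_mul
    rcases Nat.eq_zero_or_pos n with hn | hn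
    · subst hn; simp
    · nlinarith
  calc (Fintype.card (Realization d) : ℝ) ≤ (2 : ℝ) ^ (n ^ 2) := by exact_mod_cast h1
    _ ≤ Real.exp 1 ^ (n ^ 2) := pow_le_pow_left₀ (by norm_num)
        (by have := Real.add_one_le_exp (1 : ℝ); linarith) _
    _ = _ := by rw [← Real.exp_nat_mul]; norm_num

/-- Polynomial mixing of the switch chain on every degree vector. -/
theorem rapid_mixing (hn : 4 ≤ n) :
    ∃ t : ℕ, t ≤ 2 * (8 ^ 8 * 2 ^ 20) * n ^ 222 ∧ ∀ G : Realization d, tvDist d t G ≤ 1 / 4 := by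
  refine ⟨2 * (8 ^ 8 * 2 ^ 20 * (n ^ 2 + 1) ^ 73) * (n ^ 2 + 2), ?_, fun G => ?_⟩
  · have h1 : n ^ 2 + 1 ≤ n ^ 3 := by
      have : 4 * n ^ 2 ≤ n ^ 3 := by rw [pow_succ n 2, mul_comm]; exact Nat.mul_le_mul_left _ hn
      nlinarith
    have h2 : n ^ 2 + 2 ≤ n ^ 3 := by
      have : 4 * n ^ 2 ≤ n ^ 3 := by rw [pow_succ n 2, mul_comm]; exact Nat.mul_le_mul_left _ hn
      nlinarith
    calc _ ≤ 2 * (8 ^ 8 * 2 ^ 20 * (n ^ 3) ^ 73) * n ^ 3 := by gcongr
      _ = _ := by ring
  · rw [tvDist, switchChain_eq]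
    refine mixing (A := 8 ^ 8 * 2 ^ 20 * ((n : ℝ) ^ 2 + 1) ^ 73) (B := (n : ℝ) ^ 2)
      moveMatrix_nonneg moveMatrix_symm (moveMatrix_row hn) ?_ poincare (card_realization_le d) ?_ G
    · exact one_le_mul_of_one_le_of_one_le (by norm_num : (1 : ℝ) ≤ 8 ^ 8 * 2 ^ 20)
        (one_le_pow₀ (by nlinarith [sq_nonneg (n : ℝ)] : (1 : ℝ) ≤ (n : ℝ) ^ 2 + 1))
    · push_cast; exact le_of_eq (by ring)

end Vale.Agent.P335
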