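import Vale.Agent.P335.Graph
import Mathlib.Data.Fintype.CardEmbedding
import Mathlib.Data.Fintype.Perm
import Mathlib.Data.Fintype.Pi

/-!
Transition systems of a set `U` of disagreeing edges: at every vertex a pairing of the edges of
`U`, which alternates between colours `C` and not `C` away from a few exceptional places.
-/

namespace Vale.Agent.P335

open Finset
open scoped symmDiff Nat

variable {n : ℕ}

/-- Ordered pairs of vertices. -/
abbrev Dart (n : ℕ) := Fin n × Fin n

/-- A permutation of the vertices at each vertex. -/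
abbrev Sys (n : ℕ) := Fin n → Equiv.Perm (Fin n)

/-- `σ` pairs up the `U`-edges at `v`, alternating in `C` outside `X`. -/
def FitsAt (U C : Finset (Sym2 (Fin n))) (X : Finset (Dart n)) (v : Fin n)
    (σ : Equiv.Perm (Fin n)) : Prop :=
  (∀ w, σ (σ w) = w) ∧ (∀ w, s(v, w) ∉ U → σ w = w) ∧
    ∀ w, s(v, w) ∈ U → (v, w) ∉ X → (s(v, w) ∈ C ↔ s(v, σ w) ∉ C)

open Classical in
/-- The alternating transition systems of `M ∆ M'`. -/
noncomputable def pairings (M M' : Finset (Sym2 (Fin n))) : Finset (Sys n) :=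
  Fintype.piFinset fun v => Finset.univ.filter fun σ => FitsAt (M ∆ M') M ∅ v σ

theorem mem_pairings {M M' : Finset (Sym2 (Fin n))} {P : Sys n} :
    P ∈ pairings M M' ↔ ∀ v, FitsAt (M ∆ M') M ∅ v (P v) := by
  simp [pairings, Fintype.mem_piFinset]

/-- Number of alternating systems. -/
def weightOf (U : Finset (Sym2 (Fin n))) : ℕ := ∏ v, (deg U v / 2)!

/-- An exceptional place: a vertex and two of its neighbours. -/
abbrev Junction (n : ℕ) := Fin n × Fin n × Fin n

/-- The darts made exceptional by two junctions. -/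
def exceptional (J J' : Junction n) : Finset (Dart n) :=
  {(J.1, J.2.1), (J.1, J.2.2), (J'.1, J'.2.1), (J'.1, J'.2.2)}

open Classical in
/-- Systems compatible with the colouring `C` of `U` and two given junctions. -/
noncomputable def compatible (U C : Finset (Sym2 (Fin n))) (J J' : Junction n) : Finset (Sys n) :=
  Finset.univ.filter fun P => (∀ v, FitsAt U C (exceptional J J') v (P v)) ∧
    P J.1 J.2.1 = J.2.2 ∧ P J'.1 J'.2.1 = J'.2.2

theorem fitsAt_mem {U C : Finset (Sym2 (Fin n))} {X : Finset (Dart n)} {v : Fin n}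
    {σ : Equiv.Perm (Fin n)} (h : FitsAt U C X v σ) {w : Fin n} (hw : s(v, w) ∈ U) :
    s(v, σ w) ∈ U := by
  by_contra hn
  have := h.2.1 _ hn
  rw [h.1] at this
  exact hn (this ▸ hw)

open Classical in
theorem compatible_at_le (U C : Finset (Sym2 (Fin n))) (X : Finset (Dart n)) (v : Fin n)
    (S : Finset (Equiv.Perm (Fin n)))
    (hfit : ∀ σ ∈ S, FitsAt U C X v σ)
    (hX : ∀ σ ∈ S, ∀ w, (v, w) ∈ X → (v, σ w) ∈ X)
    (hagree : ∀ σ ∈ S, ∀ τ ∈ S, ∀ w, (v, w) ∈ X → σ w = τ w) :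
    S.card ≤ (deg U v / 2)! := by
  let R := Finset.univ.filter fun w => s(v, w) ∈ U ∧ (v, w) ∉ X ∧ s(v, w) ∈ C
  let B := Finset.univ.filter fun w => s(v, w) ∈ U ∧ (v, w) ∉ X ∧ s(v, w) ∉ C
  rcases S.eq_empty_or_nonempty with rfl | ⟨σ₀, hσ₀⟩
  · simp
  have hgood : ∀ σ ∈ S, ∀ w, (v, w) ∉ X → (v, σ w) ∉ X := fun σ hσ w hw h => by
    have := hX σ hσ _ h
    rw [(hfit σ hσ).1] at this
    exact hw this
  have hRB : ∀ σ ∈ S, ∀ w ∈ R, σ w ∈ B := fun σ hσ w hw => by
    simp only [R, B, Finset.mem_filter, Finset.mem_univ, true_and] at hw ⊢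
    exact ⟨fitsAt_mem (hfit σ hσ) hw.1, hgood σ hσ w hw.2.1,
      ((hfit σ hσ).2.2 w hw.1 hw.2.1).mp hw.2.2⟩
  have hBR : ∀ σ ∈ S, ∀ w ∈ B, σ w ∈ R := fun σ hσ w hw => by
    simp only [R, B, Finset.mem_filter, Finset.mem_univ, true_and] at hw ⊢
    refine ⟨fitsAt_mem (hfit σ hσ) hw.1, hgood σ hσ w hw.2.1, ?_⟩
    by_contra hc
    exact hw.2.2 (((hfit σ hσ).2.2 w hw.1 hw.2.1).mpr hc)
  have hcard : R.card = B.card :=
    le_antisymm (Finset.card_le_card_of_injOn σ₀ (hRB σ₀ hσ₀) σ₀.injective.injOn)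
      (Finset.card_le_card_of_injOn σ₀ (hBR σ₀ hσ₀) σ₀.injective.injOn)
  have hk : R.card ≤ deg U v / 2 := by
    have hd : Disjoint R B := by
      rw [Finset.disjoint_filter]; exact fun w _ h1 h2 => h2.2.2 h1.2.2
    have := Finset.card_le_card (show R ∪ B ⊆ Finset.univ.filter fun w => s(v, w) ∈ U from
      fun w hw => by
        simp only [R, B, Finset.mem_union, Finset.mem_filter, Finset.mem_univ, true_and] at hw ⊢
        rcases hw with h | h <;> exact h.1)
    rw [Finset.card_union_of_disjoint hd] at this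
    unfold deg
    omega
  let emb : {σ // σ ∈ S} → (R ↪ B) := fun σ =>
    ⟨fun w => ⟨σ.1 w.1, hRB σ.1 σ.2 w.1 w.2⟩, fun a b h => Subtype.ext
      (σ.1.injective (congrArg Subtype.val h))⟩
  have hinj : Function.Injective emb := by
    rintro ⟨σ, hσ⟩ ⟨τ, hτ⟩ h
    have hR : ∀ w ∈ R, σ w = τ w := fun w hw =>
      congrArg Subtype.val (DFunLike.congr_fun h (⟨w, hw⟩ : R))
    apply Subtype.ext
    apply Equiv.ext
    intro w
    by_cases hU : s(v, w) ∈ U
    · by_cases hw : (v, w) ∈ X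
      · exact hagree σ hσ τ hτ w hw
      · by_cases hc : s(v, w) ∈ C
        · exact hR w (by simp [R, hU, hw, hc])
        · have hwB : w ∈ B := by simp [B, hU, hw, hc]
          have h2 := hR _ (hBR σ hσ w hwB)
          rw [(hfit σ hσ).1] at h2
          conv_rhs => rw [h2, (hfit τ hτ).1]
    · exact ((hfit σ hσ).2.1 w hU).trans ((hfit τ hτ).2.1 w hU).symm
  have := Fintype.card_le_of_injective emb hinj
  rw [Fintype.card_coe, Fintype.card_embedding_eq, Fintype.card_coe, Fintype.card_coe, ← hcard,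
    Nat.descFactorial_self] at this
  exact this.trans (Nat.factorial_le hk)

theorem exceptional_closed {J J' : Junction n} {P : Sys n}
    (hinv : ∀ v w, P v (P v w) = w) (h1 : P J.1 J.2.1 = J.2.2) (h2 : P J'.1 J'.2.1 = J'.2.2)
    {v w : Fin n} (h : (v, w) ∈ exceptional J J') : (v, P v w) ∈ exceptional J J' := by
  simp only [exceptional, Finset.mem_insert, Finset.mem_singleton, Prod.mk.injEq] at h ⊢
  rcases h with ⟨rfl, rfl⟩ | ⟨rfl, rfl⟩ | ⟨rfl, rfl⟩ | ⟨rfl, rfl⟩
  · right; left; exact ⟨rfl, h1⟩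
  · left; exact ⟨rfl, by rw [← h1, hinv]⟩
  · right; right; right; exact ⟨rfl, h2⟩
  · right; right; left; exact ⟨rfl, by rw [← h2, hinv]⟩

theorem card_compatible (U C : Finset (Sym2 (Fin n))) (J J' : Junction n) :
    (compatible U C J J').card ≤ weightOf U := by
  classical
  let S : Fin n → Finset (Equiv.Perm (Fin n)) := fun v =>
    Finset.univ.filter fun σ => ∃ P ∈ compatible U C J J', P v = σ
  have hsub : compatible U C J J' ⊆ Fintype.piFinset S := fun P hP => by
    rw [Fintype.mem_piFinset]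
    exact fun v => Finset.mem_filter.mpr ⟨Finset.mem_univ _, P, hP, rfl⟩
  refine (Finset.card_le_card hsub).trans ?_
  rw [Fintype.card_piFinset]
  refine Finset.prod_le_prod (fun _ _ => Nat.zero_le _) fun v _ => ?_
  have hmem : ∀ σ ∈ S v, ∃ P : Sys n, P v = σ ∧ (∀ u, FitsAt U C (exceptional J J') u (P u)) ∧
      P J.1 J.2.1 = J.2.2 ∧ P J'.1 J'.2.1 = J'.2.2 := fun σ hσ => by
    obtain ⟨P, hP, h⟩ := (Finset.mem_filter.mp hσ).2
    exact ⟨P, h, (Finset.mem_filter.mp hP).2⟩
  refine compatible_at_le U C (exceptional J J') v (S v) ?_ ?_ ?_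
  · intro σ hσ
    obtain ⟨P, rfl, h, -⟩ := hmem σ hσ
    exact h v
  · intro σ hσ w hw
    obtain ⟨P, rfl, h, h1, h2⟩ := hmem σ hσ
    exact exceptional_closed (fun u => (h u).1) h1 h2 hw
  · intro σ hσ τ hτ w hw
    obtain ⟨P, rfl, h, h1, h2⟩ := hmem σ hσ
    obtain ⟨Q, rfl, g, g1, g2⟩ := hmem τ hτ
    simp only [exceptional, Finset.mem_insert, Finset.mem_singleton, Prod.mk.injEq] at hw
    rcases hw with ⟨rfl, rfl⟩ | ⟨rfl, rfl⟩ | ⟨rfl, rfl⟩ | ⟨rfl, rfl⟩
    · rw [h1, g1]
    · conv_lhs => rw [← h1, (h _).1]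
      conv_rhs => rw [← g1, (g _).1]
    · rw [h2, g2]
    · conv_lhs => rw [← h2, (h _).1]
      conv_rhs => rw [← g2, (g _).1]

theorem pairings_lower {M M' : Finset (Sym2 (Fin n))} (hdeg : ∀ v, deg M v = deg M' v) :
    weightOf (M ∆ M') ≤ (pairings M M').card := by
  classical
  rw [pairings, Fintype.card_piFinset]
  refine Finset.prod_le_prod (fun _ _ => Nat.zero_le _) fun v _ => ?_
  let A := Finset.univ.filter fun w => s(v, w) ∈ M
  let A' := Finset.univ.filter fun w => s(v, w) ∈ M'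
  let R := A \ A'
  let B := A' \ A
  have hA : A.card = A'.card := hdeg v
  have hcard : R.card = B.card := Finset.card_sdiff_comm hA
  have hU : deg (M ∆ M') v / 2 = R.card := by
    have : (Finset.univ.filter fun w => s(v, w) ∈ M ∆ M') = R ∪ B := by
      ext w
      simp [R, B, A, A', Finset.mem_symmDiff]
    rw [deg, this, Finset.card_union_of_disjoint disjoint_sdiff_sdiff, ← hcard]
    omega
  rw [hU]
  have e : Fintype.card (R ≃ B) = (R.card)! := by
    have e0 : (R : Type) ≃ (B : Type) := Fintype.equivOfCardEq (by simp [hcard])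
    rw [Fintype.card_equiv e0, Fintype.card_coe]
  rw [← e]
  have hmemR : ∀ w, w ∈ R ↔ s(v, w) ∈ M ∧ s(v, w) ∉ M' := by simp [R, A, A']
  have hmemB : ∀ w, w ∈ B ↔ s(v, w) ∈ M' ∧ s(v, w) ∉ M := by simp [B, A, A']
  have hdis : ∀ w, w ∈ R → w ∉ B := fun w h1 h2 => ((hmemB w).mp h2).2 ((hmemR w).mp h1).1
  let fn : (R ≃ B) → Fin n → Fin n := fun e w =>
    if h : w ∈ R then (e ⟨w, h⟩).1 else if h' : w ∈ B then (e.symm ⟨w, h'⟩).1 else w
  have hfn : ∀ e, Function.Involutive (fn e) := by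
    intro e w
    simp only [fn]
    by_cases h : w ∈ R
    · rw [dif_pos h, dif_neg (fun h' => hdis _ h' (e ⟨w, h⟩).2), dif_pos (e ⟨w, h⟩).2]
      simp
    · rw [dif_neg h]
      by_cases h' : w ∈ B
      · rw [dif_pos h', dif_pos (e.symm ⟨w, h'⟩).2]
        simp
      · rw [dif_neg h', dif_neg h, dif_neg h']
  rw [← Finset.card_univ]
  refine Finset.card_le_card_of_injOn (fun e => (hfn e).toPerm) ?_ ?_
  · intro e _
    simp only [Finset.coe_filter, Finset.mem_univ, true_and, Set.mem_setOf_eq]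
    refine ⟨fun w => hfn e w, fun w hw => ?_, fun w hw _ => ?_⟩
    · simp only [Finset.mem_symmDiff] at hw
      simp only [Function.Involutive.coe_toPerm, fn]
      rw [dif_neg (fun h => hw (Or.inl ((hmemR w).mp h))),
        dif_neg (fun h => hw (Or.inr ((hmemB w).mp h)))]
    · simp only [Finset.mem_symmDiff] at hw
      simp only [Function.Involutive.coe_toPerm, fn]
      rcases hw with hw | hw
      · rw [dif_pos ((hmemR w).mpr hw)]
        exact iff_of_true hw.1 ((hmemB _).mp (e ⟨w, _⟩).2).2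
      · have hB := (hmemB w).mpr hw
        rw [dif_neg (fun h => hdis w h hB), dif_pos hB]
        exact iff_of_false hw.2 (not_not.mpr ((hmemR _).mp (e.symm ⟨w, hB⟩).2).1)
  · intro e _ e' _ h
    apply Equiv.ext
    rintro ⟨w, hw⟩
    have h2 : fn e w = fn e' w := DFunLike.congr_fun h w
    simp only [fn, dif_pos hw] at h2
    exact Subtype.ext h2

theorem weightOf_pos (U : Finset (Sym2 (Fin n))) : 0 < weightOf U :=
  Finset.prod_pos fun v _ => Nat.factorial_pos _

end Vale.Agent.P335
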