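import Vale.Agent.P335.Graph

/-!
One-sided repairability.  A potential `pot` on vertices is attached to every degree vector, such
that an edge set whose degrees differ from `d` at two endpoints, with nonnegative potential
balance, is within three edges of a realization of `d`.
-/

namespace Vale.Agent.P335

open Finset
open scoped symmDiff

variable {n : ℕ}

/-- At least `p + 1` vertices have degree more than `q`. -/
def Crowded (d : Fin n → ℕ) (p q : ℕ) : Prop :=
  p + 1 ≤ (Finset.univ.filter fun a => q < d a).card

/-- The symmetric up-closed relation deciding the repairable direction. -/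
def Upper (d : Fin n → ℕ) (p q : ℕ) : Prop := ¬ (Crowded d p q ∧ Crowded d q p)

theorem upper_comm (d : Fin n → ℕ) (p q : ℕ) : Upper d p q ↔ Upper d q p := by
  unfold Upper; tauto

theorem upper_mono (d : Fin n → ℕ) {p p' q q' : ℕ} (h1 : p ≤ p') (h2 : q ≤ q')
    (h : Upper d p q) : Upper d p' q' := by
  rintro ⟨c1, c2⟩
  refine h ⟨?_, ?_⟩
  · have hm : (Finset.univ.filter fun a => q' < d a) ⊆ Finset.univ.filter fun a => q < d a :=
      fun a => by simp only [Finset.mem_filter, Finset.mem_univ, true_and]; omega
    have := Finset.card_le_card hm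
    unfold Crowded at *; omega
  · have hm : (Finset.univ.filter fun a => p' < d a) ⊆ Finset.univ.filter fun a => p < d a :=
      fun a => by simp only [Finset.mem_filter, Finset.mem_univ, true_and]; omega
    have := Finset.card_le_card hm
    unfold Crowded at *; omega

open Classical in
/-- Number of degree values related to `p`. -/
noncomputable def upCount (d : Fin n → ℕ) (p : ℕ) : ℕ :=
  ((Finset.range n).filter fun q => Upper d p q).card

theorem upper_iff (d : Fin n → ℕ) {p q : ℕ} (hq : q < n) :
    Upper d p q ↔ n ≤ q + upCount d p := by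
  classical
  constructor
  · intro h
    have hsub : Finset.Ico q n ⊆ (Finset.range n).filter fun q' => Upper d p q' := fun x hx => by
      simp only [Finset.mem_Ico] at hx
      simp only [Finset.mem_filter, Finset.mem_range]
      exact ⟨hx.2, upper_mono d le_rfl hx.1 h⟩
    have := Finset.card_le_card hsub
    rw [Nat.card_Ico] at this
    unfold upCount
    omega
  · intro h
    by_contra hn
    have hsub : ((Finset.range n).filter fun q' => Upper d p q') ⊆ Finset.Ico (q + 1) n :=
      fun x hx => by
        simp only [Finset.mem_filter, Finset.mem_range] at hx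
        simp only [Finset.mem_Ico]
        refine ⟨?_, hx.1⟩
        by_contra hlt
        exact hn (upper_mono d le_rfl (by omega) hx.2)
    have := Finset.card_le_card hsub
    rw [Nat.card_Ico] at this
    unfold upCount at h
    omega

theorem upCount_mono (d : Fin n → ℕ) {p p' : ℕ} (h : p ≤ p') : upCount d p ≤ upCount d p' := by
  classical
  refine Finset.card_le_card fun q hq => ?_
  simp only [Finset.mem_filter] at hq ⊢
  exact ⟨hq.1, upper_mono d h le_rfl hq.2⟩

/-- The vertex potential. -/
noncomputable def pot (d : Fin n → ℕ) (v : Fin n) : ℤ :=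
  2 * ((d v : ℤ) + upCount d (d v) - n) + 1

theorem pot_add_nonneg {d : Fin n → ℕ} (hd : ∀ v, d v < n) {u v : Fin n}
    (h : 0 ≤ pot d u + pot d v) : Upper d (d u) (d v) := by
  by_contra hn
  have h1 : ¬ n ≤ d v + upCount d (d u) := fun h => hn ((upper_iff d (hd v)).mpr h)
  have h2 : ¬ n ≤ d u + upCount d (d v) :=
    fun h => hn ((upper_comm d _ _).mp ((upper_iff d (hd u)).mpr h))
  unfold pot at h
  omega

theorem pot_add_nonpos {d : Fin n → ℕ} (hd : ∀ v, d v < n) {u v : Fin n}
    (h : pot d u + pot d v ≤ 0) : ¬ Upper d (d u) (d v) := by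
  intro hU
  have h1 : n ≤ d v + upCount d (d u) := (upper_iff d (hd v)).mp hU
  have h2 : n ≤ d u + upCount d (d v) := (upper_iff d (hd u)).mp ((upper_comm d _ _).mp hU)
  unfold pot at h
  omega

theorem pot_le {d : Fin n → ℕ} {u v : Fin n} (h : pot d u ≤ pot d v) : d u ≤ d v := by
  by_contra hn
  have := upCount_mono d (show d v ≤ d u by omega)
  unfold pot at h
  omega

/-- `H` has degrees `d` plus one at `u` and one at `v` but is not three flips from `d`. -/
theorem plus_repair {d : Fin n → ℕ} {H : Finset (Sym2 (Fin n))} (hH : Loopless H) {u v : Fin n}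
    (hdeg : ∀ w, (deg H w : ℤ) = d w + (if w = u then 1 else 0) + (if w = v then 1 else 0)) :
    (∃ W : Realization d, (H ∆ W.1).card ≤ 3) ∨ Crowded d (d u) (d v) := by
  classical
  by_cases huv : s(u, v) ∈ H
  · left
    refine ⟨⟨H.erase s(u, v), fun e he => hH e (Finset.mem_of_mem_erase he), fun w => ?_⟩, ?_⟩
    · have := deg_erase (hH.ne huv) huv w
      rw [hdeg w] at this
      omega
    · refine le_trans (Finset.card_le_card (show _ ⊆ ({s(u, v)} : Finset _) from ?_)) (by simp)
      intro e
      simp only [Finset.mem_symmDiff, Finset.mem_erase, Finset.mem_singleton]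
      tauto
  by_cases hex : ∃ a b, s(u, a) ∈ H ∧ s(v, b) ∈ H ∧ a ≠ b ∧ s(a, b) ∉ H
  · left
    obtain ⟨a, b, ha, hb, hab, habn⟩ := hex
    have hav : a ≠ v := fun h => huv (h ▸ ha)
    have hbu : b ≠ u := fun h => huv (by rw [← h, Sym2.eq_swap]; exact hb)
    have hne : s(v, b) ≠ s(u, a) := by
      rw [Ne, Sym2.eq_iff]
      rintro (⟨-, h⟩ | ⟨-, h⟩)
      · exact hab h.symm
      · exact hbu h
    have hb' : s(v, b) ∈ H.erase s(u, a) := Finset.mem_erase.mpr ⟨hne, hb⟩
    have hab' : s(a, b) ∉ (H.erase s(u, a)).erase s(v, b) :=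
      fun h => habn (Finset.mem_of_mem_erase (Finset.mem_of_mem_erase h))
    refine ⟨⟨insert s(a, b) ((H.erase s(u, a)).erase s(v, b)), fun e he => ?_, fun w => ?_⟩, ?_⟩
    · rcases Finset.mem_insert.mp he with rfl | he
      · simpa using hab
      · exact hH e (Finset.mem_of_mem_erase (Finset.mem_of_mem_erase he))
    · have h1 := deg_insert hab hab' w
      rw [deg_erase (hH.ne hb) hb' w, deg_erase (hH.ne ha) ha w, hdeg w] at h1
      omega
    · refine le_trans (Finset.card_le_card
        (show _ ⊆ ({s(u, a), s(v, b), s(a, b)} : Finset _) from ?_)) Finset.card_le_three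
      intro e
      simp only [Finset.mem_symmDiff, Finset.mem_insert, Finset.mem_erase, Finset.mem_singleton]
      tauto
  right
  push Not at hex
  have hv : (d v : ℤ) + 1 ≤ deg H v := by
    rw [hdeg v, if_pos rfl]; split_ifs <;> omega
  have hu : (d u : ℤ) + 1 ≤ deg H u := by
    rw [hdeg u, if_pos rfl]; split_ifs <;> omega
  have hsub : (Finset.univ.filter fun a => s(u, a) ∈ H) ⊆
      Finset.univ.filter fun a => d v < d a := by
    intro a ha
    simp only [Finset.mem_filter, Finset.mem_univ, true_and] at ha ⊢
    have hau : a ≠ u := (hH.ne ha).symm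
    have hav : a ≠ v := fun h => huv (h ▸ ha)
    have hs : insert u ((Finset.univ.filter fun b => s(v, b) ∈ H).erase a) ⊆
        Finset.univ.filter fun b => s(a, b) ∈ H := by
      intro b hb
      simp only [Finset.mem_insert, Finset.mem_erase, Finset.mem_filter, Finset.mem_univ,
        true_and] at hb ⊢
      rcases hb with rfl | ⟨hba, hb⟩
      · rw [Sym2.eq_swap]; exact ha
      · exact hex a b ha hb hba.symm
    have h1 := Finset.card_le_card hs
    rw [Finset.card_insert_of_notMem (by
      simp only [Finset.mem_erase, Finset.mem_filter, Finset.mem_univ, true_and]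
      rintro ⟨-, h⟩
      exact huv (by rw [Sym2.eq_swap]; exact h))] at h1
    have h2 := Finset.pred_card_le_card_erase (s := Finset.univ.filter fun b => s(v, b) ∈ H) (a := a)
    have h3 : (deg H a : ℤ) = d a := by rw [hdeg a]; simp [hau, hav]
    unfold deg at h3 hv
    omega
  have := Finset.card_le_card hsub
  unfold Crowded
  unfold deg at hu
  omega

/-- The complete graph minus `E`. -/
def compl' (E : Finset (Sym2 (Fin n))) : Finset (Sym2 (Fin n)) :=
  Finset.univ.filter fun e => ¬ e.IsDiag ∧ e ∉ E

theorem deg_compl {E : Finset (Sym2 (Fin n))} (hE : Loopless E) (v : Fin n) :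
    deg (compl' E) v + deg E v + 1 = n := by
  have h : (Finset.univ.filter fun w => s(v, w) ∈ compl' E) =
      ((Finset.univ : Finset (Fin n)).erase v) \ (Finset.univ.filter fun w => s(v, w) ∈ E) := by
    ext w; simp [compl', eq_comm]
  have hsub : (Finset.univ.filter fun w => s(v, w) ∈ E) ⊆ (Finset.univ : Finset (Fin n)).erase v :=
    fun w hw => by
      simp only [Finset.mem_filter, Finset.mem_univ, true_and] at hw
      simpa using (hE.ne hw).symm
  have h1 := Finset.card_sdiff_add_card_eq_card hsub
  rw [← h, Finset.card_erase_of_mem (Finset.mem_univ v), Finset.card_univ, Fintype.card_fin] at h1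
  have := v.pos
  unfold deg
  omega

theorem minus_repair {d : Fin n → ℕ} (hd : ∀ v, d v < n) {H : Finset (Sym2 (Fin n))}
    (hH : Loopless H) {u v : Fin n}
    (hdeg : ∀ w, (deg H w : ℤ) = d w - (if w = u then 1 else 0) - (if w = v then 1 else 0))
    (hlow : Crowded d (d u) (d v)) :
    ∃ W : Realization d, (H ∆ W.1).card ≤ 3 := by
  classical
  let db : Fin n → ℕ := fun w => n - 1 - d w
  have hl : Loopless (compl' H) := fun e he => (Finset.mem_filter.mp he).2.1
  have hdeg' : ∀ w, (deg (compl' H) w : ℤ)
      = db w + (if w = u then 1 else 0) + (if w = v then 1 else 0) := by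
    intro w
    have := deg_compl hH w
    have := hdeg w
    have := hd w
    simp only [db]
    omega
  rcases plus_repair hl hdeg' with ⟨W, hW⟩ | hc
  · refine ⟨⟨compl' W.1, fun e he => (Finset.mem_filter.mp he).2.1, fun w => ?_⟩, ?_⟩
    · have := deg_compl W.2.1 w
      have := W.2.2 w
      have := hd w
      simp only [db] at *
      omega
    · refine le_trans (le_of_eq ?_) hW
      congr 1
      ext e
      simp only [Finset.mem_symmDiff, compl', Finset.mem_filter, Finset.mem_univ, true_and]
      have h1 := hH e
      have h2 := W.2.1 e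
      tauto
  · exfalso
    unfold Crowded at hc hlow
    have hdis : Disjoint (Finset.univ.filter fun a => d v < d a)
        (Finset.univ.filter fun a => db v < db a) := by
      rw [Finset.disjoint_filter]
      intro a _ h1 h2
      simp only [db] at h2
      omega
    have := Finset.card_union_of_disjoint hdis
    have := Finset.card_le_univ ((Finset.univ.filter fun a => d v < d a) ∪
        (Finset.univ.filter fun a => db v < db a))
    rw [Fintype.card_fin] at this
    have := hd u
    simp only [db] at *
    omega

theorem transfer_repair {d : Fin n → ℕ} {H : Finset (Sym2 (Fin n))} (hH : Loopless H)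
    {u v : Fin n}
    (hdeg : ∀ w, (deg H w : ℤ) = d w + (if w = u then 1 else 0) - (if w = v then 1 else 0))
    (huv : d v ≤ d u) : ∃ W : Realization d, (H ∆ W.1).card ≤ 3 := by
  classical
  rcases eq_or_ne u v with rfl | hne
  · refine ⟨⟨H, hH, fun w => ?_⟩, by simp⟩
    have := hdeg w
    omega
  have hu := hdeg u
  have hv := hdeg v
  simp only [if_true, hne, hne.symm, if_false] at hu hv
  have hex : ∃ w, s(u, w) ∈ H ∧ s(v, w) ∉ H ∧ w ≠ v := by
    by_contra hcon
    push Not at hcon
    have hs : (Finset.univ.filter fun w => s(u, w) ∈ H) ⊆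
        insert v (Finset.univ.filter fun w => s(v, w) ∈ H) := fun w hw => by
      simp only [Finset.mem_filter, Finset.mem_univ, true_and] at hw
      simp only [Finset.mem_insert, Finset.mem_filter, Finset.mem_univ, true_and]
      by_cases h : s(v, w) ∈ H
      · exact Or.inr h
      · exact Or.inl (hcon w hw h)
    have := (Finset.card_le_card hs).trans (Finset.card_insert_le _ _)
    unfold deg at hu hv
    omega
  obtain ⟨w, h1, h2, h3⟩ := hex
  have h2' : s(v, w) ∉ H.erase s(u, w) := fun h => h2 (Finset.mem_of_mem_erase h)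
  refine ⟨⟨insert s(v, w) (H.erase s(u, w)), fun e he => ?_, fun z => ?_⟩, ?_⟩
  · rcases Finset.mem_insert.mp he with rfl | he
    · simpa using h3.symm
    · exact hH e (Finset.mem_of_mem_erase he)
  · have h := deg_insert h3.symm h2' z
    rw [deg_erase (hH.ne h1) h1 z, hdeg z] at h
    omega
  · refine le_trans (Finset.card_le_card
      (show _ ⊆ ({s(u, w), s(v, w)} : Finset _) from ?_)) (Finset.card_le_two.trans (by norm_num))
    intro e
    simp only [Finset.mem_symmDiff, Finset.mem_insert, Finset.mem_erase, Finset.mem_singleton]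
    tauto

/-- The key lemma. -/
theorem repair {d : Fin n → ℕ} (hd : ∀ v, d v < n) {H : Finset (Sym2 (Fin n))} (hH : Loopless H)
    {u v : Fin n} {σ τ : ℤ} (hσ : σ = 1 ∨ σ = -1) (hτ : τ = 1 ∨ τ = -1)
    (hdeg : ∀ w, (deg H w : ℤ) = d w + σ * (if w = u then 1 else 0) + τ * (if w = v then 1 else 0))
    (hS : 0 ≤ σ * pot d u + τ * pot d v) :
    ∃ W : Realization d, (H ∆ W.1).card ≤ 3 := by
  rcases hσ with rfl | rfl <;> rcases hτ with rfl | rfl
  · have h : ∀ w, (deg H w : ℤ) = d w + (if w = u then 1 else 0) + (if w = v then 1 else 0) :=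
      fun w => by rw [hdeg w]; ring
    have h' : ∀ w, (deg H w : ℤ) = d w + (if w = v then 1 else 0) + (if w = u then 1 else 0) :=
      fun w => by rw [hdeg w]; ring
    rcases plus_repair hH h with hW | hc
    · exact hW
    rcases plus_repair hH h' with hW | hc'
    · exact hW
    exact absurd ⟨hc, hc'⟩ (pot_add_nonneg hd (by linarith))
  · exact transfer_repair (u := u) (v := v) hH (fun w => by rw [hdeg w]; ring) (pot_le (by linarith))
  · exact transfer_repair (u := v) (v := u) hH (fun w => by rw [hdeg w]; ring) (pot_le (by linarith))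
  · exact minus_repair hd hH (fun w => by rw [hdeg w]; ring)
      (not_not.mp (pot_add_nonpos hd (u := u) (v := v) (by linarith))).1

end Vale.Agent.P335
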