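import Vale.Agent.P335.Circuit
import Vale.Agent.P335.Repair
import Vale.Agent.P335.Climb

/-! The path from `M` to `M'` through repaired stages with repairable encodings. -/

namespace Vale.Agent.P335

open Finset
open scoped symmDiff

variable {n : ℕ} {d : Fin n → ℕ}

/-- `Z` is a repaired stage between `x` and `y`, with a repairable encoding. -/
def Stage (x y : Realization d) (P : Sys n) (Z : Realization d) : Prop :=
  ∃ (m : Fin (n ^ 2 + 1)) (g : Dart n) (l : Fin (n ^ 2 + 1)),
    edge g ∈ x.1 ∆ y.1 ∧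
    ((x.1 ∆ flipped (x.1 ∆ y.1) P m g l) ∆ Z.1).card ≤ 3 ∧
    ∃ W : Realization d, ((y.1 ∆ flipped (x.1 ∆ y.1) P m g l) ∆ W.1).card ≤ 5

/-- Consecutive stages. -/
def StageStep (x y : Realization d) (P : Sys n) (a b : Realization d) : Prop :=
  Stage x y P a ∧ Stage x y P b ∧ (a.1 ∆ b.1).card ≤ 8

theorem degree_lt (x : Realization d) (v : Fin n) : d v < n := by
  rw [← x.2.2 v]
  have h := deg_compl (E := x.1) x.2.1 v
  omega

theorem ico_symmDiff_card {a b a' b' : ℕ} (h1 : a ≤ a' + 1) (h2 : a' ≤ a + 1) (h3 : b ≤ b' + 1)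
    (h4 : b' ≤ b + 1) : (Finset.Ico a b ∆ Finset.Ico a' b').card ≤ 2 := by
  refine (Finset.card_le_card (show _ ⊆ Finset.Ico (min a a') (max a a') ∪
    Finset.Ico (min b b') (max b b') from fun x hx => ?_)).trans ?_
  · simp only [Finset.mem_symmDiff, Finset.mem_Ico, Finset.mem_union] at *
    omega
  · refine (Finset.card_union_le _ _).trans ?_
    simp only [Nat.card_Ico]
    omega

theorem shifted_card {α : Type*} [DecidableEq α] (F : ℕ → α) (K : Finset α) {s t s' t' : ℕ}
    (h1 : s ≤ s' + 1) (h2 : s' ≤ s + 1) (h3 : s + t ≤ s' + t' + 1) (h4 : s' + t' ≤ s + t + 1) :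
    ((K ∪ (Finset.range t).image fun k => F (k + s)) ∆
      (K ∪ (Finset.range t').image fun k => F (k + s'))).card ≤ 2 := by
  refine le_trans ?_ (ico_symmDiff_card h1 h2 h3 h4)
  refine le_trans (Finset.card_le_card ?_)
    (Finset.card_image_le (s := Finset.Ico s (s + t) ∆ Finset.Ico s' (s' + t')) (f := F))
  intro e he
  simp only [Finset.mem_symmDiff, Finset.mem_union, Finset.mem_image, Finset.mem_range] at he
  simp only [Finset.mem_image, Finset.mem_symmDiff, Finset.mem_Ico]
  rcases he with ⟨h | ⟨k, hk, rfl⟩, hn⟩ | ⟨h | ⟨k, hk, rfl⟩, hn⟩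
  · exact absurd (Or.inl h) hn
  · refine ⟨k + s, Or.inl ⟨by omega, fun hc => hn (Or.inr ⟨k + s - s', by omega, ?_⟩)⟩, rfl⟩
    congr 1; omega
  · exact absurd (Or.inl h) hn
  · refine ⟨k + s', Or.inr ⟨by omega, fun hc => hn (Or.inr ⟨k + s' - s, by omega, ?_⟩)⟩, rfl⟩
    congr 1; omega

variable {x y : Realization d} {P : Sys n}

theorem alternating_of_mem (hP : P ∈ pairings x.1 y.1) : Alternating x.1 y.1 P :=
  ⟨Loopless.symmDiff x.2.1 y.2.1, mem_pairings.mp hP⟩

theorem stage_realization (A : Alternating x.1 y.1 P) {m : ℕ} :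
    (∀ e ∈ x.1 ∆ processed (x.1 ∆ y.1) P m, ¬ e.IsDiag) ∧
      ∀ v, deg (x.1 ∆ processed (x.1 ∆ y.1) P m) v = d v := by
  refine ⟨Loopless.symmDiff x.2.1 (fun e he => A.loopless e (Alternating.processed_subset m he)),
    fun v => ?_⟩
  have := deg_symmDiff x.1 (processed (x.1 ∆ y.1) P m) v
  rw [A.processed_degChange, x.2.2 v] at this
  omega

theorem stage_realization' (A : Alternating x.1 y.1 P) {m : ℕ} :
    (∀ e ∈ y.1 ∆ processed (x.1 ∆ y.1) P m, ¬ e.IsDiag) ∧
      ∀ v, deg (y.1 ∆ processed (x.1 ∆ y.1) P m) v = d v := by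
  refine ⟨Loopless.symmDiff y.2.1 (fun e he => A.loopless e (Alternating.processed_subset m he)),
    fun v => ?_⟩
  have := deg_symmDiff y.1 (processed (x.1 ∆ y.1) P m) v
  rw [degChange_flip (Alternating.processed_subset m), A.processed_degChange, y.2.2 v] at this
  omega

/-- Repairability of the two edge sets at the ends of a segment of a new circuit. -/
theorem segment_repair (A : Alternating x.1 y.1 P) {m : ℕ} {g : Dart n}
    (hg : edge g ∈ x.1 ∆ y.1) (hK : edge g ∉ processed (x.1 ∆ y.1) P m) {l : ℕ}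
    (hl : l ≤ period P g) :
    (- sign x.1 g * pot d g.1
        ≤ - sign x.1 ((step P)^[l] g) * pot d ((step P)^[l] g).1 →
      ∃ W : Realization d, ((x.1 ∆ flipped (x.1 ∆ y.1) P m g l) ∆ W.1).card ≤ 3) ∧
    (- sign x.1 ((step P)^[l] g) * pot d ((step P)^[l] g).1 ≤ - sign x.1 g * pot d g.1 →
      ∃ W : Realization d, ((y.1 ∆ flipped (x.1 ∆ y.1) P m g l) ∆ W.1).card ≤ 3) := by
  have hd := degree_lt x
  have hseg : segment P g l ⊆ orbit P g := by
    intro e he
    obtain ⟨k, -, rfl⟩ := Finset.mem_image.mp he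
    rw [← Alternating.orbit_iterate (P := P) g k]
    exact Alternating.edge_mem_orbit _
  have hdis : Disjoint (processed (x.1 ∆ y.1) P m) (segment P g l) :=
    Finset.disjoint_of_subset_right hseg (A.processed_disjoint hg hK)
  have hFU : flipped (x.1 ∆ y.1) P m g l ⊆ x.1 ∆ y.1 :=
    Finset.union_subset (Alternating.processed_subset m) (A.segment_subset hg l)
  have hFL : Loopless (flipped (x.1 ∆ y.1) P m g l) := fun e he => A.loopless e (hFU he)
  have hch : ∀ w, degChange x.1 (flipped (x.1 ∆ y.1) P m g l) w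
      = sign x.1 g * (if w = g.1 then 1 else 0)
        - sign x.1 ((step P)^[l] g) * (if w = ((step P)^[l] g).1 then 1 else 0) := fun w => by
    rw [flipped, degChange_union hdis, A.processed_degChange, A.segment_degChange hg hl, zero_add]
  constructor
  · intro h
    refine repair hd (Loopless.symmDiff x.2.1 hFL) (sign_or x.1 g)
      (τ := - sign x.1 ((step P)^[l] g)) (u := g.1) (v := ((step P)^[l] g).1)
      (by rcases sign_or x.1 ((step P)^[l] g) with h | h <;> simp [h]) (fun w => ?_) (by linarith)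
    rw [deg_symmDiff, hch, x.2.2]
    ring
  · intro h
    refine repair hd (Loopless.symmDiff y.2.1 hFL) (σ := - sign x.1 g)
      (τ := sign x.1 ((step P)^[l] g)) (u := g.1) (v := ((step P)^[l] g).1)
      (by rcases sign_or x.1 g with h | h <;> simp [h]) (sign_or _ _) (fun w => ?_) (by linarith)
    rw [deg_symmDiff, degChange_flip hFU, hch, y.2.2]
    ring

/-- One circuit is crossed by stages. -/
theorem circuit_path (A : Alternating x.1 y.1 P) {m : ℕ} (hm : m ≤ n ^ 2) {g : Dart n}
    (hg : edge g ∈ x.1 ∆ y.1) (hK : edge g ∉ processed (x.1 ∆ y.1) P m)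
    (a b : Realization d) (ha : a.1 = x.1 ∆ processed (x.1 ∆ y.1) P m)
    (hb : b.1 = x.1 ∆ (processed (x.1 ∆ y.1) P m ∪ orbit P g)) :
    Relation.ReflTransGen (StageStep x y P) a b := by
  classical
  set U := x.1 ∆ y.1 with hU
  set K := processed U P m with hKdef
  set L := period P g with hL
  have hLpos : 0 < L := Alternating.period_pos g
  have hL2 : 2 ≤ L := by
    by_contra h
    have h1 : L = 1 := by omega
    have e := Alternating.iterate_period (P := P) g
    rw [← hL, h1] at e
    have e1 := congrArg Prod.fst e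
    rw [Function.iterate_one, step_apply] at e1
    exact A.loopless.ne hg e1.symm
  let ψ : ℕ → ℤ := fun k => - sign x.1 ((step P)^[k] g) * pot d ((step P)^[k] g).1
  obtain ⟨a0, ha0, hmin⟩ := Finset.exists_min_image (Finset.range L) ψ ⟨0, Finset.mem_range.mpr hLpos⟩
  set g0 := (step P)^[a0] g with hg0
  have hper0 : period P g0 = L := Alternating.period_iterate g a0
  have horb : orbit P g0 = orbit P g := Alternating.orbit_iterate g a0
  have hg0U : edge g0 ∈ U := A.edge_iterate_mem hg a0
  have hg0K : ∀ k, edge ((step P)^[k] g0) ∉ K := by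
    intro k hk
    have h1 := A.processed_orbit (A.edge_iterate_mem hg0U k) hk
    rw [Alternating.orbit_iterate, horb] at h1
    exact hK (h1 (Alternating.edge_mem_orbit g))
  let φ : ℕ → ℤ := fun k => - sign x.1 ((step P)^[k] g0) * pot d ((step P)^[k] g0).1
  have hφper : φ L = φ 0 := by
    simp only [φ]
    rw [← hper0, Alternating.iterate_period]
    rfl
  have hφmin : ∀ k, φ 0 ≤ φ k := by
    intro k
    have e : (step P)^[k] g0 = (step P)^[(k + a0) % L] g := by
      rw [hg0, ← Function.iterate_add_apply]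
      exact (Function.iterate_mod_minimalPeriod_eq (f := step P) (x := g) (n := k + a0)).symm
    have := hmin ((k + a0) % L) (Finset.mem_range.mpr (Nat.mod_lt _ hLpos))
    simp only [φ, ψ, Function.iterate_zero, id_eq] at this ⊢
    rw [e, hg0]
    exact this
  obtain ⟨q, hqm, hmax⟩ := Finset.exists_max_image (Finset.Ico 1 L) φ
    ⟨1, Finset.mem_Ico.mpr ⟨le_rfl, by omega⟩⟩
  rw [Finset.mem_Ico] at hqm
  have hφmax : ∀ k ≤ L, φ k ≤ φ q := by
    intro k hk
    rcases Nat.eq_zero_or_pos k with rfl | h0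
    · exact hφmin q
    · rcases eq_or_lt_of_le hk with rfl | h
      · rw [hφper]; exact hφmin q
      · exact hmax k (Finset.mem_Ico.mpr ⟨h0, h⟩)
  obtain ⟨p, hpdef⟩ : ∃ p, p = L - q := ⟨_, rfl⟩
  let good : ℕ → ℕ → Prop := fun i j => i = 0 ∨ j = q ∨ (i < p ∧ 0 < j ∧ φ (L - i) ≤ φ j)
  have hgood : ∀ i j, i ≤ p → j ≤ q →
      (good i j → φ (L - i) ≤ φ j) ∧ (¬ good i j → φ j ≤ φ (L - i)) := by
    intro i j hi hj
    constructor
    · rintro (rfl | rfl | ⟨-, -, h⟩)
      · rw [Nat.sub_zero, hφper]; exact hφmin j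
      · exact hφmax _ (by omega)
      · exact h
    · intro h
      simp only [good, not_or, not_and, not_le] at h
      rcases Nat.eq_zero_or_pos j with rfl | h0
      · exact hφmin _
      · rcases eq_or_lt_of_le hi with rfl | hlt
        · rw [show L - i = q by omega]; exact hφmax j (by omega)
        · exact (h.2.2 hlt h0).le
  have hclimb := climb (p := p) (q := q) (by omega) hqm.1 good (fun j _ => Or.inl rfl)
    (fun i _ => Or.inr (Or.inl rfl))
    (fun i h1 h2 => by
      simp only [good, not_or, not_and]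
      exact ⟨by omega, by omega, fun _ h => absurd h (lt_irrefl 0)⟩)
    (fun j hj => by
      simp only [good, not_or, not_and]
      exact ⟨by omega, by omega, fun h => absurd h (lt_irrefl _)⟩)
  let gs : ℕ × ℕ → Dart n := fun c => (step P)^[L - c.1] g0
  let F : ℕ × ℕ → Finset (Sym2 (Fin n)) := fun c => flipped U P m (gs c) (c.1 + c.2)
  have hF : ∀ c, F c = K ∪ (Finset.range (c.1 + c.2)).image
      (fun k => edge ((step P)^[k + (L - c.1)] g0)) := by
    intro c
    simp only [F, gs, flipped, segment, ← Function.iterate_add_apply]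
    rfl
  have hnear : ∀ c e : ℕ × ℕ, c.1 ≤ L → e.1 ≤ L → Close c e → (F c ∆ F e).card ≤ 2 := by
    intro c e hc he h
    rw [hF, hF]
    obtain ⟨h1, h2, h3, h4⟩ := h
    exact shifted_card (fun k => edge ((step P)^[k] g0)) K (by omega) (by omega) (by omega) (by omega)
  have hrep : ∀ c : ℕ × ℕ, c.1 ≤ p → c.2 ≤ q →
      (φ (L - c.1) ≤ φ c.2 → ∃ W : Realization d, ((x.1 ∆ F c) ∆ W.1).card ≤ 3) ∧
      (φ c.2 ≤ φ (L - c.1) → ∃ W : Realization d, ((y.1 ∆ F c) ∆ W.1).card ≤ 3) := by
    intro c hc1 hc2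
    have hgs : edge (gs c) ∈ U := A.edge_iterate_mem hg0U _
    have hl : c.1 + c.2 ≤ period P (gs c) := by
      simp only [gs]
      rw [Alternating.period_iterate, hper0]
      omega
    have hend : (step P)^[c.1 + c.2] (gs c) = (step P)^[c.2] g0 := by
      simp only [gs]
      rw [← Function.iterate_add_apply, show c.1 + c.2 + (L - c.1) = L + c.2 by omega, ← hper0,
        Alternating.iterate_add_period]
    have := segment_repair A (d := d) (m := m) hgs (hg0K _) hl
    rw [hend] at this
    exact this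
  have hstage : ∀ c : ℕ × ℕ, Interface p q good c → ∀ Z : Realization d,
      ((x.1 ∆ F c) ∆ Z.1).card ≤ 3 → Stage x y P Z := by
    rintro c ⟨hc1, hc2, -, e, he1, he2, hce, hne⟩ Z hZ
    obtain ⟨W, hW⟩ := (hrep e he1 he2).2 ((hgood _ _ he1 he2).2 hne)
    have hLn : L ≤ n ^ 2 := Alternating.period_le g
    refine ⟨⟨m, by omega⟩, gs c, ⟨c.1 + c.2, by omega⟩, A.edge_iterate_mem hg0U _, hZ, W, ?_⟩
    refine (card_symmDiff_triangle _ (y.1 ∆ F e) _).trans ?_
    have h2 := hnear c e (by omega) (by omega) hce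
    have e2 : (y.1 ∆ F c) ∆ (y.1 ∆ F e) = F c ∆ F e := by
      rw [symmDiff_symmDiff_symmDiff_comm, symmDiff_self, bot_symmDiff]
    change ((y.1 ∆ F c) ∆ (y.1 ∆ F e)).card + _ ≤ 5
    rw [e2]
    omega
  have hexists : ∀ c : ℕ × ℕ, Interface p q good c →
      ∃ Z : Realization d, ((x.1 ∆ F c) ∆ Z.1).card ≤ 3 := fun c hc =>
    (hrep c hc.1 hc.2.1).1 ((hgood _ _ hc.1 hc.2.1).1 hc.2.2.1)
  have hstep : ∀ c e : ℕ × ℕ, Interface p q good c → Interface p q good e → Close c e →
      ∀ Z Z' : Realization d, ((x.1 ∆ F c) ∆ Z.1).card ≤ 3 → ((x.1 ∆ F e) ∆ Z'.1).card ≤ 3 →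
      StageStep x y P Z Z' := by
    intro c e hc he hce Z Z' hZ hZ'
    refine ⟨hstage c hc Z hZ, hstage e he Z' hZ', ?_⟩
    have h2 := hnear c e (by have := hc.1; omega) (by have := he.1; omega) hce
    have e2 : (x.1 ∆ F c) ∆ (x.1 ∆ F e) = F c ∆ F e := by
      rw [symmDiff_symmDiff_symmDiff_comm, symmDiff_self, bot_symmDiff]
    have t1 := card_symmDiff_triangle Z.1 (x.1 ∆ F c) Z'.1
    have t2 := card_symmDiff_triangle (x.1 ∆ F c) (x.1 ∆ F e) Z'.1
    rw [e2] at t2
    rw [symmDiff_comm Z.1 (x.1 ∆ F c)] at t1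
    omega
  have h0 : F (0, 0) = K := by rw [hF]; simp
  have hend : F (p, q) = K ∪ orbit P g := by
    rw [← horb, A.orbit_eq_segment g0, hper0]
    simp only [F, gs, flipped]
    congr 1
    rw [show L - p = q by omega, show p + q = L by omega, ← hper0, ← A.orbit_eq_segment g0]
    have e := A.orbit_eq_segment ((step P)^[q] g0)
    rw [Alternating.period_iterate, Alternating.orbit_iterate] at e
    exact e.symm
  have hclose : Close (0, 0) (0, 0) := by simp [Close]
  have hi0 : Interface p q good (0, 0) := by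
    refine ⟨Nat.zero_le _, Nat.zero_le _, Or.inl rfl, (1, 0), by omega, Nat.zero_le _,
      by simp [Close], ?_⟩
    simp [good]; omega
  -- transport the climbing relation
  have main : ∀ c, Relation.ReflTransGen
      (fun a b => Interface p q good a ∧ Interface p q good b ∧ Close a b) (0, 0) c →
      ∀ Z : Realization d, ((x.1 ∆ F c) ∆ Z.1).card ≤ 3 →
        Relation.ReflTransGen (StageStep x y P) a Z := by
    intro c hc
    induction hc with
    | refl =>
      intro Z hZ
      exact Relation.ReflTransGen.single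
        (hstep _ _ hi0 hi0 hclose a Z (by rw [h0, ha]; simp [hKdef]) hZ)
    | tail _ hbc ih =>
      intro Z hZ
      obtain ⟨Z₀, hZ₀⟩ := hexists _ hbc.1
      exact (ih Z₀ hZ₀).tail (hstep _ _ hbc.1 hbc.2.1 hbc.2.2 Z₀ Z hZ₀ hZ)
  refine main (p, q) hclimb b ?_
  rw [hend, hb]
  simp [hKdef]

theorem all_path (A : Alternating x.1 y.1 P) :
    Relation.ReflTransGen (StageStep x y P) x y := by
  have h : ∀ m, m ≤ n ^ 2 → ∀ Z : Realization d, Z.1 = x.1 ∆ processed (x.1 ∆ y.1) P m →
      Relation.ReflTransGen (StageStep x y P) x Z := by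
    intro m
    induction m with
    | zero =>
      intro _ Z hZ
      have : Z = x := Subtype.ext (by
        rw [hZ, Alternating.processed_zero, ← Finset.bot_eq_empty, symmDiff_bot])
      rw [this]
    | succ m ih =>
      intro hm Z hZ
      let Z₀ : Realization d := ⟨_, stage_realization A (m := m)⟩
      have h0 := ih (by omega) Z₀ rfl
      rcases A.processed_succ m with h | ⟨g, h1, h2, h⟩
      · have : Z = Z₀ := Subtype.ext (by rw [hZ, h])
        rw [this]; exact h0
      · exact h0.trans (circuit_path A (by omega) h1 h2 Z₀ Z rfl (by rw [hZ, h]))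
  refine h (n ^ 2) le_rfl y ?_
  rw [Alternating.processed_all, symmDiff_symmDiff_cancel_left]

end Vale.Agent.P335
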